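import Vale.Agent.P199.Stage.LiftGen
import Vale.Agent.P199.Minimise.Rigid
import Vale.Agent.P199.Pencil

/-!
P199: the pencil lemma at a stage. The second order forms as bilinear maps on tangents, inner motions in their radical,
and pairs of tangents for a lift which are independent modulo inner motions.
-/

namespace Vale.Agent.P199

noncomputable section

open Module Vale.P199

/-- Symbol data of every degree, from the roots of unity of `ℂ`. -/
theorem exists_symData (P : Pt) {l : ℕ} (hl : 0 < l) : ∃ S : SymData P, S.l = l :=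
  ⟨⟨l, algebraMap ℂ P.K (Complex.exp (2 * Real.pi * Complex.I / l)), hl,
    (Complex.isPrimitiveRoot_exp l hl.ne').map_of_injective (algebraMap ℂ P.K).injective⟩, rfl⟩

namespace Pt

variable (P : Pt)

/-- The inner motion of the generators by `h`. -/
def inner : P.D →ₗ[P.K] (Bool → P.D) :=
  LinearMap.pi fun i => LinearMap.mulLeft P.K (P.xy i) - LinearMap.mulRight P.K (P.xy i)

theorem inner_apply (h : P.D) (i : Bool) : P.inner h i = P.xy i * h - h * P.xy i := rfl

theorem inner_dirVal (N : ℕ) (h : P.D) (z : Var) :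
    P.dirVal (N := N) (P.inner h, 0) z = P.val z * h - h * P.val z := by
  cases z with
  | inl a => rfl
  | inr i =>
    by_cases hi : i < N <;> simp [dirVal, val, hi, Algebra.commutes]

theorem d1_inner (h : P.D) (p : Poly) :
    Poly.d1 P.val (fun z => P.val z * h - h * P.val z) p = Poly.ev P.val p * h - h * Poly.ev P.val p := by
  induction p using FreeAlgebra.induction with
  | grade0 n => simp [Poly.d1, Poly.jet, Poly.ev, Matrix.intCast_apply, Int.commute_cast h n |>.eq]
  | grade1 z => simp [show FreeAlgebra.ι ℤ z = Poly.X z from rfl, Poly.ev_X]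
  | mul a b ha hb => simp only [Poly.d1_mul, map_mul, ha, hb, mul_sub, sub_mul, mul_assoc]; abel
  | add a b ha hb => simp only [Poly.d1_add, map_add, ha, hb, mul_add, add_mul]; abel

theorem d1_lin (x : Var → P.D) (u u' : Var → P.D) (p : Poly) :
    Poly.d1 x (u - u') p = Poly.d1 x u p - Poly.d1 x u' p := by
  have h := (P.d1_linear x (u - u') u' 1 p).1
  rw [sub_add_cancel] at h
  exact eq_sub_of_add_eq h.symm

/-- Second derivatives along an inner motion. -/
theorem d2_inner (h : P.D) (v : Var → P.D) (p : Poly) :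
    Poly.d2 P.val (fun z => P.val z * h - h * P.val z) v p =
        Poly.d1 P.val (fun z => h * v z) p - h * Poly.d1 P.val v p ∧
      Poly.d2 P.val v (fun z => P.val z * h - h * P.val z) p =
        Poly.d1 P.val v p * h - Poly.d1 P.val (fun z => v z * h) p := by
  induction p using FreeAlgebra.induction with
  | grade0 n => simp [Poly.d1, Poly.d2, Poly.jet, Poly.ev, Matrix.intCast_apply]
  | grade1 z => simp [show FreeAlgebra.ι ℤ z = Poly.X z from rfl]
  | mul a b ha hb =>
    simp only [Poly.d1_mul, Poly.d2_mul, P.d1_inner, ha.1, ha.2, hb.1, hb.2, mul_sub, sub_mul,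
      mul_add, add_mul, mul_assoc]
    exact ⟨by abel, by abel⟩
  | add a b ha hb =>
    simp only [Poly.d1_add, Poly.d2_add, ha.1, ha.2, hb.1, hb.2, mul_add, add_mul]
    exact ⟨by abel, by abel⟩

theorem finrank_range_inner_lt : finrank P.K (LinearMap.range P.inner) < finrank P.K P.D := by
  have h := P.inner.finrank_range_add_finrank_ker
  have h1 : 0 < finrank P.K (LinearMap.ker P.inner) :=
    Module.finrank_pos_iff_exists_ne_zero.2
      ⟨⟨1, LinearMap.mem_ker.2 (funext fun i => by simp [inner_apply])⟩,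
        fun e => one_ne_zero (congrArg Subtype.val e)⟩
  omega

end Pt

/-- An element avoiding the zeros of finitely many functionals. -/
theorem exists_avoid {F V : Type*} [Field F] [Infinite F] [AddCommGroup V] [Module F V]
    (s : Finset (V →ₗ[F] F)) (hs : ∀ l ∈ s, l ≠ 0) : ∃ v, ∀ l ∈ s, l v ≠ 0 := by
  classical
  induction s using Finset.induction_on with
  | empty => exact ⟨0, by simp⟩
  | @insert l s _ ih =>
    obtain ⟨p, hp⟩ := ih fun k hk => hs k (Finset.mem_insert_of_mem hk)
    obtain ⟨q, hq⟩ : ∃ q, l q ≠ 0 := by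
      by_contra hne
      push Not at hne
      exact hs l (Finset.mem_insert_self l s) (LinearMap.ext fun q => by simpa using hne q)
    have hbad : ∀ k : V →ₗ[F] F, k p ≠ 0 ∨ k q ≠ 0 → {t : F | k (p + t • q) = 0}.Finite := by
      intro k hk
      refine Set.Subsingleton.finite fun a ha b hb => ?_
      simp only [Set.mem_ofPred_eq, map_add, map_smul, smul_eq_mul] at ha hb
      by_cases hkq : k q = 0
      · simp [hkq] at ha
        exact absurd hk (by simp [hkq, ha])
      · exact mul_right_cancel₀ hkq (by linear_combination ha - hb)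
    obtain ⟨t, ht⟩ := ((hbad l (Or.inr hq)).union
      (s.finite_toSet.biUnion fun k hk => hbad k (Or.inl (hp k hk)))).exists_notMem
    simp only [Set.mem_union, Set.mem_ofPred_eq, Set.mem_iUnion, not_or, not_exists,
      Finset.mem_coe] at ht
    refine ⟨p + t • q, fun k hk => ?_⟩
    rcases Finset.mem_insert.1 hk with rfl | hk
    · exact ht.1
    · exact ht.2 k hk

section Sub

variable {F V Z : Type*} [Field F] [Infinite F] [AddCommGroup V] [Module F V]
  [FiniteDimensional F V] [AddCommGroup Z] [Module F Z] [FiniteDimensional F Z] {Y : Submodule F Z}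
  {T : Submodule F V} (B : Y →ₗ[F] T →ₗ[F] Dual F T) (G : Submodule F (Dual F T)) {R : ℕ}
  (hB : ∀ y, y ≠ 0 → R ≤ finrank F (LinearMap.range (B y)))
include hB

/-- First half of the pencil lemma on subspaces. -/
theorem exists_fst_sub (hR : finrank F Y + finrank F G ≤ R) (s : Finset (Dual F T))
    (hs : ∀ l ∈ s, l ≠ 0) : ∃ a : T, (∀ y, B y a ∈ G → y = 0) ∧ ∀ l ∈ s, l a ≠ 0 :=
  Pencil.exists_fst B G hB hR s hs

/-- Second half of the pencil lemma on subspaces. -/
theorem exists_snd_sub (hR : 3 * finrank F Y + finrank F G ≤ R) {a : T}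
    (ha : ∀ y, B y a ∈ G → y = 0) (s : Finset (Dual F T))
    (hs : ∀ l ∈ s, ∃ b : T, (∀ y, B y a b = 0) ∧ l b ≠ 0) :
    ∃ b : T, (∀ y, B y a b = 0) ∧ (∀ y z, B y a + B z b ∈ G → y = 0 ∧ z = 0) ∧
      ∀ l ∈ s, l b ≠ 0 :=
  Pencil.exists_snd B G hB hR ha s fun l hl =>
    let ⟨b, h1, h2⟩ := hs l hl
    ⟨b, Pencil.mem_orth.2 h1, h2⟩

end Sub

namespace Rows

variable {L : Listing} {n : ℕ} {P : Pt} (r : Rows L n P)

/-- The second order vector of two ambient directions. -/
def quad (u v : Amb P) : (j : Fin n) → r.W j := fun j =>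
  ⟨r.proj j (Poly.d2 P.val (P.dirVal (N := L.b n) (u, 0))
    (P.dirVal (N := L.b n) (v, 0)) (L.eqn j)), r.proj_mem j _⟩

theorem form_eq (y : Dual P.K ((j : Fin n) → r.W j)) (u v : Amb P) : r.form y u v = y (r.quad u v) :=
  rfl

theorem dirVal_amb_add (u u' : Amb P) : P.dirVal (N := L.b n) (u + u', 0) =
    P.dirVal (N := L.b n) (u, 0) + P.dirVal (N := L.b n) (u', 0) := by
  funext z
  rw [Pi.add_apply, ← Pt.dirVal_add, Prod.mk_add_mk, add_zero]

theorem dirVal_amb_smul (s : P.K) (u : Amb P) :
    P.dirVal (N := L.b n) (s • u, 0) = s • P.dirVal (N := L.b n) (u, 0) := by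
  funext z
  rw [Pi.smul_apply, ← Pt.dirVal_smul, Prod.smul_mk, smul_zero]

/-- The second order vector as a bilinear map on tangents. -/
def quadT : r.T →ₗ[P.K] r.T →ₗ[P.K] ((j : Fin n) → r.W j) :=
  LinearMap.mk₂ P.K (fun u v => r.quad u v)
    (fun u u' v => funext fun j => Subtype.ext (by
      simp only [quad, Submodule.coe_add, dirVal_amb_add, Pi.add_apply,
        (P.d2_bilin _ _ _ _ 1 _).1, map_add]))
    (fun s u v => funext fun j => Subtype.ext (by
      simp only [quad, SetLike.val_smul, dirVal_amb_smul, Pi.smul_apply,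
        (P.d2_bilin _ _ 0 _ s _).2.2.1, map_smul]))
    (fun u v v' => funext fun j => Subtype.ext (by
      simp only [quad, Submodule.coe_add, dirVal_amb_add, Pi.add_apply,
        (P.d2_bilin _ _ _ _ 1 _).2.1, map_add]))
    (fun s u v => funext fun j => Subtype.ext (by
      simp only [quad, SetLike.val_smul, dirVal_amb_smul, Pi.smul_apply,
        (P.d2_bilin _ _ 0 _ s _).2.2.2, map_smul]))

/-- The second order forms of the identities. -/
def B : r.Y →ₗ[P.K] r.T →ₗ[P.K] Dual P.K r.T :=
  LinearMap.mk₂ P.K (fun y u => (y : Dual P.K _).comp (r.quadT u))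
    (fun _ _ _ => rfl) (fun _ _ _ => rfl)
    (fun y u v => by ext; simp)
    (fun s y u => by ext; simp)

theorem B_apply (y : r.Y) (u v : r.T) : r.B y u v = r.form y u v := rfl

theorem le_rank_B {R : ℕ} (hR : r.RankGE R) {y : r.Y} (hy : y ≠ 0) :
    R ≤ finrank P.K (LinearMap.range (r.B y)) := by
  have h := hR (y : Dual P.K _) y.2 (fun e => hy (Subtype.ext e))
    ((LinearMap.ker (r.B y)).map r.T.subtype) (Submodule.map_subtype_le _ _) (by
      rintro _ ⟨u, hu, rfl⟩ v hv
      exact LinearMap.congr_fun (LinearMap.mem_ker.1 hu) ⟨v, hv⟩)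
  rw [Submodule.finrank_map_subtype_eq] at h
  have h2 := (r.B y).finrank_range_add_finrank_ker
  omega

variable (hT : r.Tight) (hs : P.Solves L n)
include hT hs

omit hT in
theorem inner_mem_T (h : P.D) : P.inner h ∈ r.T := by
  refine LinearMap.mem_ker.2 (funext fun j => Subtype.ext ?_)
  show r.proj j (Poly.d1 P.val (P.dirVal (N := L.b n) (P.inner h, 0)) (L.eqn j)) = 0
  rw [funext (P.inner_dirVal (L.b n) h), P.d1_inner, hs j j.2, zero_mul, mul_zero, sub_zero,
    map_zero]

omit hs in
/-- Inner motions lie in the radical of every identity. -/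
theorem form_inner (h : P.D) {v : Amb P} (hv : v ∈ r.T) {y : Dual P.K ((j : Fin n) → r.W j)}
    (hy : y ∈ r.Y) : r.form y (P.inner h) v = 0 ∧ r.form y v (P.inner h) = 0 := by
  have hd : ∀ j : Fin n, Poly.d1 P.val (P.dirVal (N := L.b n) (v, 0)) (L.eqn j) = 0 :=
    fun j => hT.fixed v hv j
  have hJ : ∀ w : Amb P, y (r.J w) = 0 := fun w =>
    (Submodule.mem_dualAnnihilator y).1 hy _ ⟨w, rfl⟩
  have hl : ∀ w : Amb P, (fun z => h * P.dirVal (N := L.b n) (w, 0) z) =
      P.dirVal (N := L.b n) (fun i => h * w i, 0) := fun w => funext fun z => by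
    cases z with
    | inl a => rfl
    | inr i => simp [Pt.dirVal]
  have hr : ∀ w : Amb P, (fun z => P.dirVal (N := L.b n) (w, 0) z * h) =
      P.dirVal (N := L.b n) (fun i => w i * h, 0) := fun w => funext fun z => by
    cases z with
    | inl a => rfl
    | inr i => simp [Pt.dirVal]
  constructor
  · rw [form_eq, show r.quad (P.inner h) v = r.J (fun i => h * v i) from
      funext fun j => Subtype.ext (by
        show r.proj j _ = r.proj j (Poly.d1 P.val _ _)
        rw [funext (P.inner_dirVal (L.b n) h), (P.d2_inner h _ _).1, hd, mul_zero, sub_zero, hl]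
        rfl)]
    exact hJ _
  · rw [form_eq, show r.quad v (P.inner h) = -r.J (fun i => v i * h) from
      funext fun j => Subtype.ext (by
        show r.proj j _ = -r.proj j (Poly.d1 P.val _ _)
        rw [funext (P.inner_dirVal (L.b n) h), (P.d2_inner h _ _).2, hd, zero_mul, zero_sub, hr,
          map_neg]
        rfl), map_neg, hJ, neg_zero]

/-- With identities, a pencil pair is independent modulo inner motions. -/
theorem indepInner_of_pencil (hc : 0 < r.corank) {a b : r.T}
    (hab : ∀ y z, r.B y a + r.B z b = 0 → y = 0 ∧ z = 0) : P.IndepInner a b := by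
  rintro α β ⟨h, hh⟩
  obtain ⟨y, hy⟩ : ∃ y : r.Y, y ≠ 0 :=
    (Module.finrank_pos_iff_exists_ne_zero (R := P.K) (M := r.Y)).1 hc
  have hz : r.B (α • y) a + r.B (β • y) b = 0 := by
    have e : α • a + β • b = (⟨P.inner h, r.inner_mem_T hs h⟩ : r.T) :=
      Subtype.ext (funext fun i => hh i)
    rw [map_smul, map_smul, LinearMap.smul_apply, LinearMap.smul_apply, ← map_smul, ← map_smul,
      ← map_add, e]
    ext v
    exact (r.form_inner hT h v.2 y.2).1
  obtain ⟨h1, h2⟩ := hab _ _ hz
  exact ⟨(smul_eq_zero.1 h1).resolve_right hy, (smul_eq_zero.1 h2).resolve_right hy⟩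

omit hT in
/-- Without identities the budget leaves room outside the inner motions and one more line. -/
theorem exists_functional (hbud : ∑ j, finrank P.K (r.W j) < finrank P.K P.D) (a : r.T) :
    ∃ l : Dual P.K r.T, l ≠ 0 ∧ l a = 0 ∧ ∀ h, l ⟨P.inner h, r.inner_mem_T hs h⟩ = 0 := by
  let g : P.D →ₗ[P.K] r.T := P.inner.codRestrict r.T (r.inner_mem_T hs)
  have h1 : finrank P.K (LinearMap.range g) < finrank P.K P.D := by
    refine lt_of_le_of_lt (le_of_eq ?_) P.finrank_range_inner_lt
    rw [← Submodule.finrank_map_subtype_eq r.T (LinearMap.range g), ← LinearMap.range_comp]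
    rfl
  have h2 : finrank P.K (Submodule.span P.K {a}) ≤ 1 :=
    (finrank_span_le_card ({a} : Set r.T)).trans (by simp)
  have h3 := Submodule.finrank_add_le_finrank_add_finrank (LinearMap.range g)
    (Submodule.span P.K {a})
  have h4 := r.J.finrank_range_add_finrank_ker
  have h5 : finrank P.K (LinearMap.range r.J) ≤ ∑ j, finrank P.K (r.W j) :=
    (Submodule.finrank_le _).trans (Module.finrank_pi_fintype P.K).le
  have h6 : finrank P.K (Amb P) = 2 * finrank P.K P.D := by
    rw [Module.finrank_pi_fintype]; simp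
  have hlt : LinearMap.range g ⊔ Submodule.span P.K {a} < ⊤ :=
    Submodule.lt_top_of_finrank_lt_finrank (by
      have h7 : finrank P.K (LinearMap.ker r.J) = finrank P.K r.T := rfl
      omega)
  obtain ⟨l, hl0, hl⟩ := Submodule.exists_dual_map_eq_bot_of_lt_top hlt inferInstance
  have hmem : ∀ x ∈ LinearMap.range g ⊔ Submodule.span P.K {a}, l x = 0 := fun x hx =>
    (Submodule.mem_bot P.K).1 (hl ▸ Submodule.mem_map_of_mem hx)
  exact ⟨l, hl0, hmem a (Submodule.mem_sup_right (Submodule.mem_span_singleton_self a)),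
    fun h => hmem _ (Submodule.mem_sup_left ⟨h, rfl⟩)⟩

omit hT in
/-- First tangent of a lift. -/
theorem exists_fst_indep {R : ℕ} (hR : r.RankGE R) (G : Submodule P.K (Dual P.K r.T))
    (hcR : r.corank + finrank P.K G ≤ R)
    (hbud : ∑ j, finrank P.K (r.W j) < finrank P.K P.D)
    (s : Finset (Dual P.K r.T)) (hs0 : ∀ l ∈ s, l ≠ 0) :
    ∃ a : r.T, (∀ y, r.B y a ∈ G → y = 0) ∧ (∀ l ∈ s, l a ≠ 0) ∧
      (r.corank = 0 → ∀ h, (a : Amb P) ≠ P.inner h) := by
  classical
  have : CharZero P.K := P.charZero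
  by_cases hc : r.corank = 0
  · have : Subsingleton r.Y := (Module.finrank_zero_iff (R := P.K) (M := r.Y)).1 hc
    obtain ⟨l, hl0, -, hl⟩ := r.exists_functional hs hbud 0
    obtain ⟨a, ha⟩ := exists_avoid (insert l s) fun k hk => by
      rcases Finset.mem_insert.1 hk with rfl | hk
      exacts [hl0, hs0 k hk]
    exact ⟨a, fun y _ => Subsingleton.elim _ _, fun k hk => ha k (Finset.mem_insert_of_mem hk),
      fun _ h e => ha l (Finset.mem_insert_self l s) (by
        rw [show a = ⟨P.inner h, r.inner_mem_T hs h⟩ from Subtype.ext e, hl])⟩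
  · obtain ⟨a, h1, h2⟩ := exists_fst_sub r.B G (fun y hy => r.le_rank_B hR hy) hcR s hs0
    exact ⟨a, h1, h2, fun h => absurd h hc⟩

/-- Second tangent of a lift: with the first it is a pencil pair independent modulo inner motions. -/
theorem exists_snd_indep {R : ℕ} (hR : r.RankGE R) (G : Submodule P.K (Dual P.K r.T))
    (hcR : 3 * r.corank + finrank P.K G ≤ R)
    (hbud : ∑ j, finrank P.K (r.W j) < finrank P.K P.D)
    {a : r.T} (ha : ∀ y, r.B y a ∈ G → y = 0) (ha' : r.corank = 0 → ∀ h, (a : Amb P) ≠ P.inner h)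
    (s : Finset (Dual P.K r.T)) (hs0 : ∀ l ∈ s, ∃ b : r.T, (∀ y, r.B y a b = 0) ∧ l b ≠ 0) :
    ∃ b : r.T, (∀ y, r.B y a b = 0) ∧ (∀ y z, r.B y a + r.B z b ∈ G → y = 0 ∧ z = 0) ∧
      (∀ l ∈ s, l b ≠ 0) ∧ P.IndepInner a b := by
  classical
  have : CharZero P.K := P.charZero
  by_cases hc : r.corank = 0
  · have : Subsingleton r.Y := (Module.finrank_zero_iff (R := P.K) (M := r.Y)).1 hc
    obtain ⟨l, hl0, hla, hl⟩ := r.exists_functional hs hbud a
    obtain ⟨b, hb⟩ := exists_avoid (insert l s) fun k hk => by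
      rcases Finset.mem_insert.1 hk with rfl | hk
      · exact hl0
      · obtain ⟨b, -, hb⟩ := hs0 k hk
        exact fun e => hb (by rw [e]; rfl)
    refine ⟨b, fun y => by rw [Subsingleton.elim y 0, map_zero]; rfl,
      fun y z _ => ⟨Subsingleton.elim _ _, Subsingleton.elim _ _⟩,
      fun k hk => hb k (Finset.mem_insert_of_mem hk), ?_⟩
    rintro α β ⟨h, hh⟩
    have e : α • a + β • b = (⟨P.inner h, r.inner_mem_T hs h⟩ : r.T) :=
      Subtype.ext (funext fun i => hh i)
    have hβ : β = 0 := by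
      have := congrArg l e
      rw [map_add, map_smul, map_smul, hla, hl, smul_zero, zero_add, smul_eq_mul] at this
      exact (mul_eq_zero.1 this).resolve_right (hb l (Finset.mem_insert_self l s))
    refine ⟨?_, hβ⟩
    by_contra hα
    rw [hβ, zero_smul, add_zero] at e
    refine ha' hc (α⁻¹ • h) ?_
    rw [map_smul, ← show α • (a : Amb P) = P.inner h from congrArg Subtype.val e, inv_smul_smul₀ hα]
  · obtain ⟨b, h1, h2, h3⟩ :=
      exists_snd_sub r.B G (fun y hy => r.le_rank_B hR hy) hcR ha s hs0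
    exact ⟨b, h1, h2, h3, r.indepInner_of_pencil hT hs (Nat.pos_of_ne_zero hc)
      fun y z e => h2 y z (e ▸ G.zero_mem)⟩

end Rows

end

end Vale.Agent.P199
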