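import Mathlib

/-!
# P199: the trace of left multiplication and orthogonal projections on subalgebras

In a finite dimensional division algebra in characteristic zero every subalgebra is a division
algebra, so the cyclic form `tr (a * b)` is nondegenerate on it: there is a projection onto it.
-/

namespace Vale.P199.TrProj

open Module

variable {K D : Type*} [Field K] [DivisionRing D] [Algebra K D]

/-- The trace of left multiplication. -/
noncomputable def tr : D →ₗ[K] K := (LinearMap.trace K D) ∘ₗ (Algebra.lmul K D).toLinearMap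

lemma tr_comm (a b : D) : tr (K := K) (a * b) = tr (b * a) := by
  simp only [tr, LinearMap.comp_apply, AlgHom.toLinearMap_apply, map_mul]
  exact LinearMap.trace_mul_comm K _ _

variable [FiniteDimensional K D]

lemma tr_one : tr (K := K) (1 : D) = (finrank K D : K) := by
  simp only [tr, LinearMap.comp_apply, AlgHom.toLinearMap_apply, map_one, LinearMap.trace_one]

/-- Inverses stay in a subalgebra. -/
lemma inv_mem (S : Subalgebra K D) {s : D} (hs : s ∈ S) : s⁻¹ ∈ S := by
  by_cases h0 : s = 0
  · simp [h0, S.zero_mem]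
  let f : S →ₗ[K] S := LinearMap.mulLeft K (⟨s, hs⟩ : S)
  have hf : Function.Injective f := fun x y h =>
    Subtype.ext (mul_left_cancel₀ h0 (congrArg Subtype.val h))
  obtain ⟨t, ht⟩ := LinearMap.injective_iff_surjective.1 hf ⟨1, S.one_mem⟩
  have : s * (t : D) = 1 := congrArg Subtype.val ht
  rw [← eq_inv_of_mul_eq_one_right this]
  exact t.2

variable [CharZero K]

lemma exists_tr_mul_ne_zero (S : Subalgebra K D) {s : D} (hs : s ∈ S) (h0 : s ≠ 0) :
    ∃ t ∈ S, tr (K := K) (s * t) ≠ 0 :=
  ⟨s⁻¹, inv_mem S hs, by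
    rw [mul_inv_cancel₀ h0, tr_one, Nat.cast_ne_zero]
    exact finrank_pos.ne'⟩

/-- The pairing of a subalgebra with itself. -/
noncomputable def pairOn (S : Subalgebra K D) : S →ₗ[K] Dual K S :=
  LinearMap.mk₂ K (fun a b : S => tr (K := K) ((b : D) * a))
    (fun a a' b => by simp [mul_add]) (fun c a b => by simp)
    (fun a b b' => by simp [add_mul]) (fun c a b => by simp)

lemma pairOn_bijective (S : Subalgebra K D) : Function.Bijective (pairOn S) := by
  have hinj : Function.Injective (pairOn S) := by
    refine (injective_iff_map_eq_zero _).2 fun a ha => Subtype.ext ?_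
    by_contra h0
    obtain ⟨t, ht, hne⟩ := exists_tr_mul_ne_zero S a.2 h0
    exact hne (by rw [tr_comm]; exact LinearMap.congr_fun ha ⟨t, ht⟩)
  exact ⟨hinj, (LinearMap.injective_iff_surjective_of_finrank_eq_finrank
    Subspace.dual_finrank_eq.symm).1 hinj⟩

/-- The orthogonal projection onto a subalgebra. -/
noncomputable def projOn (S : Subalgebra K D) : D →ₗ[K] D :=
  S.val.toLinearMap ∘ₗ (LinearEquiv.ofBijective (pairOn S) (pairOn_bijective S)).symm.toLinearMap ∘ₗ
    LinearMap.mk₂ K (fun (a : D) (b : S) => tr (K := K) ((b : D) * a))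
      (fun a a' b => by simp [mul_add]) (fun c a b => by simp)
      (fun a b b' => by simp [add_mul]) (fun c a b => by simp)

lemma projOn_mem (S : Subalgebra K D) (a : D) : projOn S a ∈ S := SetLike.coe_mem _

lemma tr_mul_projOn (S : Subalgebra K D) {s : D} (hs : s ∈ S) (a : D) :
    tr (K := K) (s * projOn S a) = tr (s * a) := by
  have h := LinearMap.congr_fun ((LinearEquiv.ofBijective (pairOn S) (pairOn_bijective S)).apply_symm_apply
    (LinearMap.mk₂ K (fun (a : D) (b : S) => tr (K := K) ((b : D) * a))
      (fun a a' b => by simp [mul_add]) (fun c a b => by simp)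
      (fun a b b' => by simp [add_mul]) (fun c a b => by simp) a)) ⟨s, hs⟩
  exact h

lemma eq_projOn (S : Subalgebra K D) {a x : D} (hx : x ∈ S)
    (h : ∀ s ∈ S, tr (K := K) (s * x) = tr (s * a)) : projOn S a = x := by
  by_contra hne
  obtain ⟨t, ht, hne'⟩ := exists_tr_mul_ne_zero S (S.sub_mem (projOn_mem S a) hx) (sub_ne_zero.2 hne)
  rw [tr_comm, mul_sub, map_sub, tr_mul_projOn S ht, h t ht, sub_self] at hne'
  exact hne' rfl

lemma projOn_self (S : Subalgebra K D) {a : D} (ha : a ∈ S) : projOn S a = a :=
  eq_projOn S ha fun _ _ => rfl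

/-- The projection is left linear over the subalgebra. -/
lemma projOn_mul (S : Subalgebra K D) {c : D} (hc : c ∈ S) (a : D) :
    projOn S (c * a) = c * projOn S a :=
  eq_projOn S (S.mul_mem hc (projOn_mem S a)) fun s hs => by
    rw [← mul_assoc, tr_mul_projOn S (S.mul_mem hs hc), mul_assoc]

/-- A functional on a subalgebra is a trace pairing. -/
lemma exists_eq_tr (S : Subalgebra K D) (φ : S →ₗ[K] K) :
    ∃ z ∈ S, ∀ s : S, φ s = tr (K := K) (z * s) := by
  obtain ⟨z, hz⟩ := (pairOn_bijective S).2 φ
  exact ⟨z, z.2, fun s => by rw [← hz, tr_comm]; rfl⟩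

end Vale.P199.TrProj
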