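import Vale.Agent.P199.Stage.Pt
import Vale.Agent.P199.Stage.TrProj
import Vale.Agent.P199.Field.Tangent
import Vale.Agent.P199.Minimise.Rigid

/-!
P199: the canonical new row at a point. With `ψ` the differential of the new equation on old tangents, `ψ₀ = ψ s₀`
and `F` the algebra generated by the ratios `ψ₀⁻¹ ψ s` inside `K[q]`, the row has `W = ψ₀ F` and the partners are the
orthogonal of `ψ₀⁻¹ F` in `K[q]`. The rows stay tight, the number of identities grows by `dim W - dim ψ (T)`, and a
covector with new part zero loses at most twice `dim W` of rank.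
-/

namespace Vale.Agent.P199

noncomputable section

open Module Vale.P199.TrProj

namespace Poly

variable {R : Type} [Ring R] (x : Var → R)

theorem d1_sum (u : Var → R) (t : Finset ℕ) (f : ℕ → Poly) :
    d1 x u (∑ i ∈ t, f i) = ∑ i ∈ t, d1 x u (f i) := by
  induction t using Finset.cons_induction with
  | empty => simpa using d1_int x u 0
  | cons i t hi ih => rw [Finset.sum_cons, Finset.sum_cons, d1_add, ih]

theorem d1_congr_guarded (L : Listing) {j : ℕ} (hg : L.Guarded j) {u u' : Var → R}
    (h1 : ∀ a, u (Sum.inl a) = u' (Sum.inl a))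
    (h2 : ∀ i < L.b j, u (Sum.inr i) = u' (Sum.inr i)) :
    d1 x u (L.p j) = d1 x u' (L.p j) := by
  have h := hg (fun z => tri (x z) (u z) (u z) 0) (fun z => tri (x z) (u' z) (u' z) 0)
    (fun a => by simp only [h1]) fun i hi => by simp only [h2 i hi]
  exact congrFun (congrFun h 0) 1

theorem d1_pow_congr {u u' : Var → R} {p : Poly} (h : d1 x u p = d1 x u' p) (m : ℕ) :
    d1 x u (p ^ m) = d1 x u' (p ^ m) := by
  induction m with
  | zero => simp [d1]
  | succ m ih => rw [pow_succ, d1_mul, d1_mul, ih, h]

end Poly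

namespace Pt

variable (P : Pt) (L : Listing) (n : ℕ)

/-- The subfield generated by the element of row `j`. -/
def qAlg (j : ℕ) : Subalgebra P.K P.D := Algebra.adjoin P.K {P.q L j}

theorem mem_scalars_iff {j : ℕ} {x : P.D} : x ∈ P.scalars L j ↔ x ∈ P.qAlg L j := by
  rw [qAlg, ← Subalgebra.mem_toSubmodule, Algebra.adjoin_eq_span, Pt.scalars]
  refine Iff.of_eq (congrArg (fun S => x ∈ Submodule.span P.K S) ?_)
  ext y
  rw [Set.mem_range, SetLike.mem_coe, Submonoid.mem_closure_singleton]

theorem qAlg_comm {j : ℕ} {x y : P.D} (hx : x ∈ P.qAlg L j) (hy : y ∈ P.qAlg L j) :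
    x * y = y * x :=
  Algebra.commute_of_mem_adjoin_singleton_of_commute hy
    (Algebra.commute_of_mem_adjoin_singleton_of_commute hx (Commute.refl _)).symm

/-- Extending a direction by zero. -/
def pad {N : ℕ} (M : ℕ) (w : P.Dir N) : P.Dir M :=
  (w.1, fun i => if h : (i : ℕ) < N then w.2 ⟨i, h⟩ else 0)

theorem dirVal_pad {N M : ℕ} (h : N ≤ M) (w : P.Dir N) : P.dirVal (P.pad M w) = P.dirVal w := by
  funext z
  cases z with
  | inl a => rfl
  | inr i =>
    by_cases hi : i < N
    · simp [dirVal, pad, hi, hi.trans_le h]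
    · by_cases hi' : i < M <;> simp [dirVal, pad, hi, hi']

theorem dirVal_ambient (N M : ℕ) (u : Bool → P.D) :
    P.dirVal (N := N) (u, 0) = P.dirVal (N := M) (u, 0) := by
  funext z
  cases z with
  | inl a => rfl
  | inr i => by_cases hi : i < N <;> by_cases hi' : i < M <;> simp [dirVal, hi, hi']

theorem dEq_ambient (N M j : ℕ) (u : Bool → P.D) : P.dEq L N j (u, 0) = P.dEq L M j (u, 0) :=
  congrArg (fun v => Poly.d1 P.val v (L.eqn j)) (P.dirVal_ambient N M u)

/-- Restricting a direction to the first `N` symbols. -/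
def cutDir {N M : ℕ} (h : N ≤ M) (w : P.Dir M) : P.Dir N := (w.1, fun i => w.2 (Fin.castLE h i))

theorem dEq_cutDir {N M j : ℕ} (h : N ≤ M) (hj : L.b (j + 1) ≤ N) (hg : L.Guarded j) (w : P.Dir M) :
    P.dEq L N j (P.cutDir h w) = P.dEq L M j w :=
  Vale.P199.Fld.d1_eqn_congr L hg P.val (fun _ => rfl) fun i hi => by
    have hiN : i < N := hi.trans_le hj
    simp [dirVal, cutDir, hiN, hiN.trans_le h]

/-- The differential of a row: the part of the earlier symbols and the motion of its own. -/
theorem dEq_split (hg : L.Guarded n) (w : P.Dir (L.b (n + 1))) :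
    P.dEq L (L.b (n + 1)) n w =
      P.dEq L (L.b n) n (P.cutDir (by rw [L.b_succ]; exact Nat.le_add_right _ _) w) +
      ∑ i : Fin (L.e n), w.2 ⟨L.b n + i, by rw [L.b_succ]; omega⟩ • P.q L n ^ (i : ℕ) := by
  set v := P.cutDir (N := L.b n) (by rw [L.b_succ]; exact Nat.le_add_right _ _) w with hv
  have hp : Poly.d1 P.val (P.dirVal w) (L.p n) = Poly.d1 P.val (P.dirVal v) (L.p n) :=
    Poly.d1_congr_guarded P.val L hg (fun _ => rfl) fun i hi => by
      have : i < L.b (n + 1) := by rw [L.b_succ]; omega
      simp [dirVal, hv, cutDir, hi, this]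
  show Poly.d1 P.val (P.dirVal w) (L.eqn n) = Poly.d1 P.val (P.dirVal v) (L.eqn n) + _
  simp only [Listing.eqn, Poly.d1_add, Poly.d1_sum, Poly.d1_mul, Poly.d1_X, Poly.ev_X, map_pow,
    Poly.d1_pow_congr P.val hp, Finset.sum_add_distrib]
  rw [← Fin.sum_univ_eq_sum_range (fun i => P.dirVal w (Sum.inr (L.b n + i)) * Poly.ev P.val (L.p n) ^ i),
    ← Fin.sum_univ_eq_sum_range (fun i => P.dirVal v (Sum.inr (L.b n + i)) * Poly.ev P.val (L.p n) ^ i)]
  have h1 : ∀ i : Fin (L.e n), P.dirVal v (Sum.inr (L.b n + i)) = 0 := fun i => by simp [dirVal]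
  have h2 : ∀ i : Fin (L.e n), P.dirVal w (Sum.inr (L.b n + i)) =
      algebraMap P.K P.D (w.2 ⟨L.b n + i, by rw [L.b_succ]; omega⟩) := fun i => by
    simp [dirVal, show L.b n + (i : ℕ) < L.b (n + 1) by rw [L.b_succ]; omega]
  simp only [h1, h2, zero_mul, Finset.sum_const_zero, ← Algebra.smul_def]
  rw [show Poly.ev P.val (L.p n) = P.q L n from rfl]
  abel

/-- A solved row spans its scalars by the powers below its degree. -/
theorem scalars_le_span (h0 : Poly.ev P.val (L.eqn n) = 0) :
    P.scalars L n ≤ Submodule.span P.K (Set.range fun i : Fin (L.e n) => P.q L n ^ (i : ℕ)) := by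
  set S := Submodule.span P.K (Set.range fun i : Fin (L.e n) => P.q L n ^ (i : ℕ))
  have he : P.q L n ^ L.e n ∈ S := by
    simp only [Listing.eqn, map_add, map_sum, map_mul, map_pow, Poly.ev_X] at h0
    rw [show P.q L n = Poly.ev P.val (L.p n) from rfl, eq_neg_of_add_eq_zero_left h0]
    refine neg_mem (sum_mem fun i hi => ?_)
    rw [show P.val (Sum.inr (L.b n + i)) = algebraMap P.K P.D (P.c (L.b n + i)) from rfl,
      ← Algebra.smul_def]
    exact S.smul_mem _ (Submodule.subset_span ⟨⟨i, Finset.mem_range.1 hi⟩, rfl⟩)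
  refine Submodule.span_le.2 ?_
  rintro _ ⟨m, rfl⟩
  induction m using Nat.strong_induction_on with
  | _ m ih =>
    by_cases hm : m < L.e n
    · exact Submodule.subset_span ⟨⟨m, hm⟩, rfl⟩
    · have e : P.q L n ^ m = P.q L n ^ (m - L.e n) * P.q L n ^ L.e n := by
        rw [← pow_add]; congr 1; omega
      show P.q L n ^ m ∈ S
      rw [e]
      refine Submodule.span_induction (p := fun x _ => P.q L n ^ (m - L.e n) * x ∈ S)
        ?_ (by simp) (fun x y _ _ hx hy => by rw [mul_add]; exact S.add_mem hx hy)
        (fun c x _ hx => by rw [mul_smul_comm]; exact S.smul_mem c hx) he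
      rintro _ ⟨i, rfl⟩
      rw [← pow_add]
      have := i.2
      exact ih _ (by omega)

end Pt

namespace NewRow

variable {L : Listing} {n : ℕ} {P : Pt} (r : Rows L n P) (s₀ : Rows.Amb P)

theorem b_mono (L : Listing) {j m : ℕ} (hj : j ≤ m) : L.b j ≤ L.b m := by
  induction hj with
  | refl => exact le_rfl
  | step h ih => rw [L.b_succ]; exact ih.trans (Nat.le_add_right _ _)

/-- The differential of the new equation with fixed symbols. -/
def psi : Rows.Amb P →ₗ[P.K] P.D := (P.dEq L (L.b n) n).comp (LinearMap.inl P.K _ _)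

/-- The motions of the classes: the algebra generated by the ratios on old tangents. -/
def classes : Subalgebra P.K P.D :=
  Algebra.adjoin P.K ((fun u => (psi (L := L) (n := n) s₀)⁻¹ * psi (L := L) (n := n) u) '' (r.T : Set (Rows.Amb P)))

/-- The projection onto the linked motions. -/
def proj : P.D →ₗ[P.K] P.D :=
  haveI := P.charZero
  (LinearMap.mulLeft P.K (psi (L := L) (n := n) s₀)).comp
    ((projOn (classes r s₀)).comp (LinearMap.mulLeft P.K (psi (L := L) (n := n) s₀)⁻¹))

/-- The projection onto the field of the row. -/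
def projF : P.D →ₗ[P.K] P.D :=
  haveI := P.charZero
  projOn (P.qAlg L n)

/-- What the new row needs. -/
structure Hyp : Prop where
  ne : psi (L := L) (n := n) s₀ ≠ 0
  mem : s₀ ∈ r.T
  scal : ∀ w : P.Dir (L.b n), r.Jf w = 0 → P.dEq L (L.b n) n w ∈ P.scalars L n
  guarded : ∀ j ≤ n, L.Guarded j
  solved : Poly.ev P.val (L.eqn n) = 0
  tight : r.Tight

variable {r s₀} (H : Hyp r s₀)

include H

theorem psi_mem {u : Rows.Amb P} (hu : u ∈ r.T) : psi (L := L) (n := n) u ∈ P.qAlg L n := by
  refine (P.mem_scalars_iff L).1 (H.scal (u, 0) ?_)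
  funext j
  refine Subtype.ext ?_
  show r.projF j (P.dEq L (L.b n) j (u, 0)) = 0
  rw [H.tight.fixed u hu j, map_zero]

theorem classes_le : classes r s₀ ≤ P.qAlg L n := by
  refine Algebra.adjoin_le ?_
  rintro _ ⟨u, hu, rfl⟩
  exact Subalgebra.mul_mem _ (inv_mem _ (psi_mem H H.mem)) (psi_mem H hu)

/-- The differential of the new equation on an old tangent is a linked motion. -/
theorem proj_psi {u : Rows.Amb P} (hu : u ∈ r.T) :
    proj r s₀ (psi (L := L) (n := n) u) = psi (L := L) (n := n) u := by
  have := P.charZero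
  show psi (L := L) (n := n) s₀ * projOn (classes r s₀) _ = _
  rw [LinearMap.mulLeft_apply, projOn_self (classes r s₀) (Algebra.subset_adjoin (Set.mem_image_of_mem _ hu)),
    ← mul_assoc, mul_inv_cancel₀ H.ne, one_mul]

theorem proj_self {a : P.D} (ha : a ∈ LinearMap.range (proj r s₀)) : proj r s₀ a = a := by
  have := P.charZero
  obtain ⟨b, rfl⟩ := ha
  show psi (L := L) (n := n) s₀ * projOn (classes r s₀) ((psi (L := L) (n := n) s₀)⁻¹ * (psi (L := L) (n := n) s₀ * projOn (classes r s₀) _)) =
    psi (L := L) (n := n) s₀ * projOn (classes r s₀) _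
  rw [← mul_assoc (psi (L := L) (n := n) s₀)⁻¹, inv_mul_cancel₀ H.ne, one_mul,
    projOn_self _ (projOn_mem _ _)]

theorem range_le : LinearMap.range (proj r s₀) ≤ P.scalars L n := by
  have := P.charZero
  rintro _ ⟨b, rfl⟩
  exact (P.mem_scalars_iff L).2
    (Subalgebra.mul_mem _ (psi_mem H H.mem) (classes_le H (projOn_mem _ _)))

theorem proj_projF (a : P.D) : proj r s₀ (projF (L := L) (n := n) a) = proj r s₀ a := by
  have := P.charZero
  show psi (L := L) (n := n) s₀ * projOn (classes r s₀) ((psi (L := L) (n := n) s₀)⁻¹ * projOn (P.qAlg L n) a) =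
    psi (L := L) (n := n) s₀ * projOn (classes r s₀) ((psi (L := L) (n := n) s₀)⁻¹ * a)
  congr 1
  refine eq_projOn _ (projOn_mem _ _) fun s hs => ?_
  rw [tr_mul_projOn _ hs, ← mul_assoc, ← mul_assoc, tr_mul_projOn _
    (Subalgebra.mul_mem _ (classes_le H hs) (inv_mem _ (psi_mem H H.mem)))]

theorem sup_eq :
    LinearMap.range (proj r s₀) ⊔ (P.scalars L n ⊓ LinearMap.ker (proj r s₀)) = P.scalars L n := by
  refine le_antisymm (sup_le (range_le H) inf_le_left) fun x hx => ?_
  refine Submodule.mem_sup.2 ⟨_, LinearMap.mem_range_self (proj r s₀) x, x - proj r s₀ x,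
    ⟨Submodule.sub_mem _ hx (range_le H (LinearMap.mem_range_self _ _)), ?_⟩, add_sub_cancel _ _⟩
  show proj r s₀ (x - proj r s₀ x) = 0
  rw [map_sub, proj_self H (LinearMap.mem_range_self _ _), sub_self]

/-- The rows with the new one. -/
def rows : Rows L (n + 1) P where
  W := Fin.lastCases (LinearMap.range (proj r s₀)) r.W
  Pp := Fin.lastCases (P.scalars L n ⊓ LinearMap.ker (proj r s₀)) r.Pp
  proj := Fin.lastCases (proj r s₀) r.proj
  projF := Fin.lastCases (projF (L := L) (n := n)) r.projF
  proj_mem j a := by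
    cases j using Fin.lastCases with
    | last => simp only [Fin.lastCases_last]; exact LinearMap.mem_range_self _ _
    | cast j => simp only [Fin.lastCases_castSucc]; exact r.proj_mem j a
  proj_self j a ha := by
    cases j using Fin.lastCases with
    | last => simp only [Fin.lastCases_last] at ha ⊢; exact proj_self H ha
    | cast j => simp only [Fin.lastCases_castSucc] at ha ⊢; exact r.proj_self j a ha
  proj_Pp j a ha := by
    cases j using Fin.lastCases with
    | last => simp only [Fin.lastCases_last] at ha ⊢; exact ha.2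
    | cast j => simp only [Fin.lastCases_castSucc] at ha ⊢; exact r.proj_Pp j a ha
  projF_mem j a := by
    cases j using Fin.lastCases with
    | last =>
      simp only [Fin.lastCases_last, sup_eq H]
      have := P.charZero
      exact (P.mem_scalars_iff L).2 (projOn_mem _ _)
    | cast j => simp only [Fin.lastCases_castSucc]; exact r.projF_mem j a
  projF_self j a ha := by
    cases j using Fin.lastCases with
    | last =>
      simp only [Fin.lastCases_last, sup_eq H] at ha ⊢
      have := P.charZero
      exact projOn_self _ ((P.mem_scalars_iff L).1 ha)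
    | cast j => simp only [Fin.lastCases_castSucc] at ha ⊢; exact r.projF_self j a ha
  proj_projF j a := by
    cases j using Fin.lastCases with
    | last => simp only [Fin.lastCases_last]; exact proj_projF H a
    | cast j => simp only [Fin.lastCases_castSucc]; exact r.proj_projF j a
  Pp_le j := by
    cases j using Fin.lastCases with
    | last => simp only [Fin.lastCases_last, Fin.val_last]; exact inf_le_left
    | cast j => simp only [Fin.lastCases_castSucc, Fin.val_castSucc]; exact r.Pp_le j
  scalars_le j := by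
    cases j using Fin.lastCases with
    | last => simp only [Fin.lastCases_last, Fin.val_last, sup_eq H]; exact le_rfl
    | cast j => simp only [Fin.lastCases_castSucc, Fin.val_castSucc]; exact r.scalars_le j

theorem rows_W_last : (rows H).W (Fin.last n) = LinearMap.range (proj r s₀) := by
  simp only [rows, Fin.lastCases_last]

theorem rows_W_castSucc (j : Fin n) : (rows H).W j.castSucc = r.W j := by
  simp only [rows, Fin.lastCases_castSucc]

theorem rows_proj_last : (rows H).proj (Fin.last n) = proj r s₀ := by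
  simp only [rows, Fin.lastCases_last]

theorem rows_proj_castSucc (j : Fin n) : (rows H).proj j.castSucc = r.proj j := by
  simp only [rows, Fin.lastCases_castSucc]

/-- The new tangents. -/
theorem mem_T {u : Rows.Amb P} :
    u ∈ (rows H).T ↔ u ∈ r.T ∧ psi (L := L) (n := n) u = 0 := by
  simp only [Rows.T, LinearMap.mem_ker]
  constructor
  · intro h
    have h1 : r.J u = 0 := by
      funext j
      refine Subtype.ext ?_
      have h2 := congrArg Subtype.val (congrFun h j.castSucc)
      show r.proj j (P.dEq L (L.b n) j (u, 0)) = 0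
      rw [← rows_proj_castSucc H, P.dEq_ambient L (L.b n) (L.b (n + 1))]
      exact h2
    refine ⟨h1, ?_⟩
    have h2 : (rows H).proj (Fin.last n) (P.dEq L (L.b (n + 1)) n (u, 0)) = 0 :=
      congrArg Subtype.val (congrFun h (Fin.last n))
    rw [rows_proj_last, P.dEq_ambient L (L.b (n + 1)) (L.b n)] at h2
    rw [← proj_psi H (u := u) (LinearMap.mem_ker.2 h1)]
    exact h2
  · rintro ⟨h1, h2⟩
    funext j
    refine Subtype.ext ?_
    cases j using Fin.lastCases with
    | last =>
      show (rows H).proj (Fin.last n) (P.dEq L (L.b (n + 1)) n (u, 0)) = 0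
      rw [P.dEq_ambient L (L.b (n + 1)) (L.b n), show P.dEq L (L.b n) n (u, 0) = 0 from h2, map_zero]
    | cast j =>
      show (rows H).proj j.castSucc (P.dEq L (L.b (n + 1)) j (u, 0)) = 0
      rw [rows_proj_castSucc, P.dEq_ambient L (L.b (n + 1)) (L.b n)]
      exact congrArg Subtype.val (congrFun h1 j)

theorem tight : (rows H).Tight := by
  have := P.charZero
  have hNM : L.b n ≤ L.b (n + 1) := by rw [L.b_succ]; exact Nat.le_add_right _ _
  have hold : ∀ (j : Fin n) (w : P.Dir (L.b (n + 1))),
      ((rows H).Jf w j.castSucc : P.D) = (r.Jf (P.cutDir hNM w) j : P.D) := fun j w => by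
    show (rows H).projF j.castSucc (P.dEq L (L.b (n + 1)) j w) =
      r.projF j (P.dEq L (L.b n) j (P.cutDir hNM w))
    rw [P.dEq_cutDir L hNM (b_mono L j.2) (H.guarded j j.2.le),
      show (rows H).projF j.castSucc = r.projF j by simp only [rows, Fin.lastCases_castSucc]]
  have hnew : ∀ w : P.Dir (L.b (n + 1)), ((rows H).Jf w (Fin.last n) : P.D) =
      projOn (P.qAlg L n) (P.dEq L (L.b (n + 1)) n w) := fun w => by
    show (rows H).projF (Fin.last n) (P.dEq L (L.b (n + 1)) n w) = _
    rw [show (rows H).projF (Fin.last n) = projF (L := L) (n := n) by simp only [rows, Fin.lastCases_last]]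
    rfl
  refine ⟨fun t => ?_, fun w hw j => ?_, fun u hu j => ?_⟩
  · obtain ⟨v, hv⟩ := H.tight.surj fun j => ⟨t j.castSucc, by
      have h := (t j.castSucc).2
      have e1 : (rows H).W j.castSucc = r.W j := rows_W_castSucc H j
      have e2 : (rows H).Pp j.castSucc = r.Pp j := by simp only [rows, Fin.lastCases_castSucc]
      simpa only [e1, e2] using h⟩
    set x : P.D := (t (Fin.last n) : P.D) - projOn (P.qAlg L n) (P.dEq L (L.b n) n v)
    have hx : x ∈ Submodule.span P.K (Set.range fun i : Fin (L.e n) => P.q L n ^ (i : ℕ)) := by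
      refine P.scalars_le_span L n H.solved (Submodule.sub_mem _ ?_ ((P.mem_scalars_iff L).2 (projOn_mem _ _)))
      have h := (t (Fin.last n)).2
      simpa only [rows, Fin.lastCases_last, sup_eq H] using h
    obtain ⟨c, hc⟩ := (Submodule.mem_span_range_iff_exists_fun P.K).1 hx
    let w : P.Dir (L.b (n + 1)) := (v.1, fun i =>
      if h : (i : ℕ) < L.b n then v.2 ⟨i, h⟩
      else c ⟨(i : ℕ) - L.b n, by have h2 : (i : ℕ) < L.b n + L.e n := (L.b_succ n) ▸ i.2; omega⟩)
    have hcut : P.cutDir hNM w = v := Prod.ext rfl (funext fun i => dif_pos i.2)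
    refine ⟨w, funext fun j => Subtype.ext ?_⟩
    cases j using Fin.lastCases with
    | last =>
      have hw2 : ∀ i : Fin (L.e n), w.2 ⟨L.b n + i, by rw [L.b_succ]; omega⟩ = c i := fun i => by
        simp only [w]
        rw [dif_neg (by omega)]
        exact congrArg c (Fin.ext (by simp))
      rw [hnew, P.dEq_split L n (H.guarded n le_rfl) w, hcut, map_add]
      simp only [hw2, hc]
      rw [projOn_self (P.qAlg L n) (a := x) ((P.mem_scalars_iff L).1 ?_), add_sub_cancel]
      refine Submodule.span_le.2 ?_ hx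
      rintro _ ⟨i, rfl⟩
      exact Submodule.subset_span ⟨i, rfl⟩
    | cast j => rw [hold, hcut, congrFun hv j]
  · have h0 : r.Jf (P.cutDir hNM w) = 0 := by
      funext j
      refine Subtype.ext ?_
      rw [← hold, hw]
      rfl
    cases j using Fin.lastCases with
    | last =>
      have h1 := hnew w
      rw [hw] at h1
      have h2 : P.dEq L (L.b (n + 1)) n w ∈ P.qAlg L n := by
        rw [P.dEq_split L n (H.guarded n le_rfl) w]
        refine Subalgebra.add_mem _ ((P.mem_scalars_iff L).1 (H.scal _ h0)) ?_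
        exact sum_mem fun i _ => Subalgebra.smul_mem _
          (Subalgebra.pow_mem _ (Algebra.subset_adjoin (Set.mem_singleton _)) _) _
      show P.dEq L (L.b (n + 1)) n w = 0
      rw [← projOn_self _ h2, ← h1]
      rfl
    | cast j =>
      show P.dEq L (L.b (n + 1)) j w = 0
      rw [← P.dEq_cutDir L hNM (b_mono L j.2) (H.guarded j j.2.le)]
      exact H.tight.exact _ h0 j
  · obtain ⟨h1, h2⟩ := (mem_T H).1 hu
    rw [P.dEq_ambient L (L.b (n + 1)) (L.b n)]
    cases j using Fin.lastCases with
    | last => exact h2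
    | cast j => exact H.tight.fixed u h1 j

theorem finrank_W : finrank P.K ((rows H).W (Fin.last n)) = finrank P.K (classes r s₀) := by
  have := P.charZero
  rw [rows_W_last]
  have e : LinearMap.range (proj r s₀) =
      (Subalgebra.toSubmodule (classes r s₀)).map (LinearMap.mulLeft P.K (psi (L := L) (n := n) s₀)) := by
    refine le_antisymm ?_ ?_
    · rintro _ ⟨b, rfl⟩
      exact ⟨_, projOn_mem _ _, rfl⟩
    · rintro _ ⟨f, hf, rfl⟩
      refine ⟨psi (L := L) (n := n) s₀ * f, ?_⟩
      show psi (L := L) (n := n) s₀ * projOn (classes r s₀) _ = _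
      rw [LinearMap.mulLeft_apply, ← mul_assoc, inv_mul_cancel₀ H.ne, one_mul,
        projOn_self (classes r s₀) (show f ∈ classes r s₀ from hf)]
      rfl
  rw [e]
  exact (Submodule.equivMapOfInjective _ (mul_right_injective₀ H.ne) _).finrank_eq.symm

/-- Old rows, new row: the dimension of a covector space. -/
theorem finrank_pi_W : finrank P.K ((j : Fin (n + 1)) → (rows H).W j) =
    finrank P.K ((j : Fin n) → r.W j) + finrank P.K (classes r s₀) := by
  rw [finrank_pi_fintype, finrank_pi_fintype, Fin.sum_univ_castSucc, finrank_W H]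
  congr 1
  exact Finset.sum_congr rfl fun j _ => by rw [rows_W_castSucc H]

theorem finrank_T : finrank P.K (rows H).T + finrank P.K (r.T.map (psi (L := L) (n := n))) =
    finrank P.K r.T := by
  have h1 := ((psi (L := L) (n := n) (P := P)).domRestrict r.T).finrank_range_add_finrank_ker
  rw [LinearMap.range_domRestrict] at h1
  have e : LinearMap.ker ((psi (L := L) (n := n) (P := P)).domRestrict r.T) =
      (rows H).T.comap r.T.subtype := by
    ext u
    simp [mem_T H]
  have hle : (rows H).T ≤ r.T := fun u hu => ((mem_T H).1 hu).1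
  rw [e, (Submodule.comapSubtypeEquivOfLe hle).finrank_eq] at h1
  omega

/-- **The identities of the new rows.** -/
theorem corank_add : (rows H).corank + finrank P.K (r.T.map (psi (L := L) (n := n))) =
    r.corank + finrank P.K (classes r s₀) := by
  have h1 := (rows H).J.finrank_range_add_finrank_ker
  have h2 := r.J.finrank_range_add_finrank_ker
  have h3 := Subspace.finrank_add_finrank_dualAnnihilator_eq (LinearMap.range (rows H).J)
  have h4 := Subspace.finrank_add_finrank_dualAnnihilator_eq (LinearMap.range r.J)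
  have h5 := finrank_pi_W H
  have h6 := finrank_T H
  have h7 : (rows H).corank = finrank P.K (LinearMap.range (rows H).J).dualAnnihilator := rfl
  have h8 : r.corank = finrank P.K (LinearMap.range r.J).dualAnnihilator := rfl
  have h9 : (rows H).T = LinearMap.ker (rows H).J := rfl
  have h10 : r.T = LinearMap.ker r.J := rfl
  rw [h7, h8, h10]
  rw [h9, h10] at h6
  linarith

/-- The old part of a covector. -/
def oldPart (y : Dual P.K ((j : Fin (n + 1)) → (rows H).W j)) :
    Dual P.K ((j : Fin n) → r.W j) where
  toFun a := y fun j => Fin.lastCases (motive := fun j => (rows H).W j) 0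
    (fun j => ⟨a j, by rw [rows_W_castSucc H]; exact (a j).2⟩) j
  map_add' a b := by
    rw [← map_add]
    congr 1
    funext j
    refine Subtype.ext ?_
    cases j using Fin.lastCases <;> simp
  map_smul' c a := by
    rw [RingHom.id_apply, ← map_smul]
    congr 1
    funext j
    refine Subtype.ext ?_
    cases j using Fin.lastCases <;> simp

/-- The new part of a covector, on the whole algebra. -/
def newPart (y : Dual P.K ((j : Fin (n + 1)) → (rows H).W j)) : P.D →ₗ[P.K] P.K :=
  y.comp ((LinearMap.single P.K (fun j => (rows H).W j) (Fin.last n)).comp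
    ((proj r s₀).codRestrict ((rows H).W (Fin.last n)) fun a => by
      rw [rows_W_last H]; exact LinearMap.mem_range_self _ a))

theorem apply_eq_parts (y : Dual P.K ((j : Fin (n + 1)) → (rows H).W j)) (a : Fin (n + 1) → P.D) :
    y (fun j => ⟨(rows H).proj j (a j), (rows H).proj_mem j _⟩) =
      oldPart H y (fun j => ⟨r.proj j (a j.castSucc), r.proj_mem j _⟩) +
        newPart H y (a (Fin.last n)) := by
  show _ = y _ + y _
  rw [← map_add]
  congr 1
  funext j
  refine Subtype.ext ?_
  cases j using Fin.lastCases with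
  | last => simp [rows_proj_last H]
  | cast j => simp [rows_proj_castSucc H, Fin.castSucc_ne_last]

/-- The new part pairs through an element `z` with `z * ψ s₀` in the classes. -/
theorem exists_newPart_eq (y : Dual P.K ((j : Fin (n + 1)) → (rows H).W j)) :
    ∃ z : P.D, z * psi (L := L) (n := n) s₀ ∈ classes r s₀ ∧
      ∀ a, newPart H y a = tr (K := P.K) (z * a) := by
  have := P.charZero
  obtain ⟨z₀, hz₀, h⟩ := exists_eq_tr (classes r s₀)
    ((newPart H y).comp ((LinearMap.mulLeft P.K (psi (L := L) (n := n) s₀)).comp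
      (classes r s₀).val.toLinearMap))
  refine ⟨z₀ * (psi (L := L) (n := n) s₀)⁻¹, ?_, fun a => ?_⟩
  · rw [mul_assoc, inv_mul_cancel₀ H.ne, mul_one]
    exact hz₀
  · rw [mul_assoc, ← tr_mul_projOn _ hz₀, ← h ⟨_, projOn_mem _ _⟩]
    show y _ = y _
    refine congrArg (fun t => y (LinearMap.single P.K (fun j => (rows H).W j) (Fin.last n) t)) (Subtype.ext ?_)
    show proj r s₀ a = proj r s₀ (psi (L := L) (n := n) s₀ * projOn (classes r s₀) _)
    exact (proj_self H (LinearMap.mem_range_self (proj r s₀) a)).symm

theorem form_eq (y : Dual P.K ((j : Fin (n + 1)) → (rows H).W j)) (u v : Rows.Amb P) :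
    (rows H).form y u v = r.form (oldPart H y) u v +
      newPart H y (Poly.d2 P.val (P.dirVal (N := L.b n) (u, 0))
        (P.dirVal (N := L.b n) (v, 0)) (L.eqn n)) := by
  show y _ = _
  rw [apply_eq_parts H y fun j => Poly.d2 P.val (P.dirVal (N := L.b (n + 1)) (u, 0))
    (P.dirVal (N := L.b (n + 1)) (v, 0)) (L.eqn j)]
  simp only [P.dirVal_ambient (L.b (n + 1)) (L.b n), Fin.val_castSucc, Fin.val_last]
  rfl

theorem oldPart_mem {y : Dual P.K ((j : Fin (n + 1)) → (rows H).W j)} (hy : y ∈ (rows H).Y)
    (h0 : newPart H y = 0) : oldPart H y ∈ r.Y := by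
  refine (Submodule.mem_dualAnnihilator _).2 ?_
  rintro _ ⟨u, rfl⟩
  have h := (Submodule.mem_dualAnnihilator _).1 hy _ ⟨u, rfl⟩
  rw [show (rows H).J u = fun j => ⟨(rows H).proj j (P.dEq L (L.b (n + 1)) j (u, 0)),
    (rows H).proj_mem j _⟩ from rfl,
    apply_eq_parts H y fun j => P.dEq L (L.b (n + 1)) j (u, 0), h0, LinearMap.zero_apply,
    add_zero] at h
  simp only [P.dEq_ambient L (L.b (n + 1)) (L.b n), Fin.val_castSucc] at h
  exact h

theorem parts_injective {y : Dual P.K ((j : Fin (n + 1)) → (rows H).W j)} (h1 : oldPart H y = 0)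
    (h0 : newPart H y = 0) : y = 0 := by
  refine LinearMap.ext fun a => ?_
  have h := apply_eq_parts H y fun j => (a j : P.D)
  rw [h1, h0, LinearMap.zero_apply, LinearMap.zero_apply, add_zero] at h
  rw [LinearMap.zero_apply, ← h]
  congr 1
  funext j
  exact Subtype.ext ((rows H).proj_self j _ (a j).2).symm

/-- Rank: covectors with new part zero lose twice the new dimension, the others are left to the caller. -/
theorem rankGE {R R' : ℕ} (hR : r.RankGE R)
    (hnew : ∀ y ∈ (rows H).Y, newPart H y ≠ 0 → ∀ S : Submodule P.K (Rows.Amb P), S ≤ (rows H).T →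
      (∀ u ∈ S, ∀ v ∈ (rows H).T, (rows H).form y u v = 0) →
        finrank P.K S + R' ≤ finrank P.K (rows H).T) :
    (rows H).RankGE (min (R - 2 * finrank P.K (classes r s₀)) R') := by
  intro y hy hy0 S hS hrad
  by_cases h0 : newPart H y = 0
  swap
  · have := hnew y hy h0 S hS hrad
    omega
  have hy1 : oldPart H y ≠ 0 := fun h1 => hy0 (parts_injective H h1 h0)
  have hle : (rows H).T ≤ r.T := fun u hu => ((mem_T H).1 hu).1
  have hform : ∀ u v, (rows H).form y u v = r.form (oldPart H y) u v := fun u v => by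
    rw [form_eq, h0, LinearMap.zero_apply, add_zero]
  obtain ⟨C₀, hC₀⟩ := exists_isCompl (rows H).T
  let C : Submodule P.K (Rows.Amb P) := C₀ ⊓ r.T
  have hsup : (rows H).T ⊔ C = r.T := by
    show (rows H).T ⊔ C₀ ⊓ r.T = r.T
    rw [← sup_inf_assoc_of_le _ hle, hC₀.sup_eq_top, top_inf_eq]
  have hdisj : (rows H).T ⊓ C = ⊥ :=
    le_bot_iff.1 ((inf_le_inf_left _ inf_le_left).trans hC₀.inf_eq_bot.le)
  let B : S →ₗ[P.K] Dual P.K C :=
    LinearMap.mk₂ P.K (fun (u : S) (v : C) => r.form (oldPart H y) (u : Rows.Amb P) (v : Rows.Amb P))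
      (fun a a' b => by
        simp only [Submodule.coe_add, Rows.form, ← map_add]
        congr 1
        funext j
        refine Subtype.ext ?_
        simp only [Pi.add_apply, Submodule.coe_add, ← map_add, ← (P.d2_bilin _ _ _ _ 1 _).1]
        congr 3
        exact funext fun z => by rw [Pi.add_apply, ← P.dirVal_add]; simp)
      (fun c a b => by
        simp only [Submodule.coe_smul, Rows.form, ← map_smul]
        congr 1
        funext j
        refine Subtype.ext ?_
        simp only [Pi.smul_apply, Submodule.coe_smul, ← map_smul, ← (P.d2_bilin _ _ (0 : Var → P.D) _ c _).2.2.1]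
        congr 3
        exact funext fun z => by rw [Pi.smul_apply, ← P.dirVal_smul]; simp)
      (fun a b b' => by
        simp only [Submodule.coe_add, Rows.form, ← map_add]
        congr 1
        funext j
        refine Subtype.ext ?_
        simp only [Pi.add_apply, Submodule.coe_add, ← map_add, ← (P.d2_bilin _ _ _ _ 1 _).2.1]
        congr 3
        exact funext fun z => by rw [Pi.add_apply, ← P.dirVal_add]; simp)
      (fun c a b => by
        simp only [Submodule.coe_smul, Rows.form, ← map_smul]
        congr 1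
        funext j
        refine Subtype.ext ?_
        simp only [Pi.smul_apply, Submodule.coe_smul, ← map_smul, ← (P.d2_bilin _ _ (0 : Var → P.D) _ c _).2.2.2]
        congr 3
        exact funext fun z => by rw [Pi.smul_apply, ← P.dirVal_smul]; simp)
  have h1 := B.finrank_range_add_finrank_ker
  have h2 : finrank P.K C + finrank P.K (rows H).T = finrank P.K r.T := by
    have := Submodule.finrank_sup_add_finrank_inf_eq (rows H).T C
    rw [hsup, hdisj, finrank_bot] at this
    omega
  have h3 : finrank P.K C ≤ finrank P.K (classes r s₀) := by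
    have h4 := finrank_T H
    have h5 := corank_add H
    have h6 : finrank P.K (r.T.map (psi (L := L) (n := n))) ≤ finrank P.K (classes r s₀) := by
      rw [← finrank_W H, rows_W_last H]
      refine Submodule.finrank_mono ?_
      rintro _ ⟨u, hu, rfl⟩
      exact ⟨_, proj_psi H hu⟩
    omega
  have h4 := Submodule.finrank_le (LinearMap.range B)
  have hdual : finrank P.K (Dual P.K C) = finrank P.K C := Subspace.dual_finrank_eq
  rw [hdual] at h4
  have h5 := hR _ (oldPart_mem H hy h0) hy1 ((LinearMap.ker B).map S.subtype) (fun u hu => by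
    obtain ⟨a, -, rfl⟩ := hu
    exact hle (hS a.2)) (by
    rintro _ ⟨a, ha, rfl⟩ v hv
    obtain ⟨t, ht, c, hc, hvt⟩ := Submodule.mem_sup.1 (show v ∈ (rows H).T ⊔ C by rw [hsup]; exact hv)
    have hsplit : v = t + c := hvt.symm
    have e1 : r.form (oldPart H y) (a : Rows.Amb P) (t : Rows.Amb P) = 0 := by
      rw [← hform]; exact hrad _ a.2 _ ht
    have e2 : r.form (oldPart H y) (a : Rows.Amb P) (c : Rows.Amb P) = 0 :=
      LinearMap.congr_fun ha ⟨c, hc⟩
    have e3 : r.form (oldPart H y) (a : Rows.Amb P) v =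
        r.form (oldPart H y) (a : Rows.Amb P) (t : Rows.Amb P) +
          r.form (oldPart H y) (a : Rows.Amb P) (c : Rows.Amb P) := by
      rw [hsplit]
      simp only [Rows.form, ← map_add]
      congr 1
      funext j
      refine Subtype.ext ?_
      simp only [Pi.add_apply, Submodule.coe_add, ← map_add, ← (P.d2_bilin _ _ _ _ 1 _).2.1]
      congr 3
      exact funext fun z => by rw [Pi.add_apply, ← P.dirVal_add]; simp
    rw [Submodule.coe_subtype, e3, e1, e2, add_zero])
  rw [(Submodule.equivMapOfInjective _ (Submodule.injective_subtype S) _).finrank_eq.symm] at h5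
  have h6 := Submodule.finrank_mono hS
  omega

end NewRow

end

end Vale.Agent.P199
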