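import Vale.Agent.P199.Stage.Word
import Vale.Agent.P199.SkewLaurent

/-!
P199: stages. A point is a finite dimensional division algebra over a field containing `ℂ`, two elements and the values
of the symbols. Row `j` carries two subspaces of `D`: `W j` (the linked motions) and `Pp j` (partner motions inside
`K[q_j]`, free through the symbols of row `j`). Identities are the covectors on `Π W j` killing the ambient directions.
-/

namespace Vale.Agent.P199

noncomputable section

open Module

/-- The list: the elements, the first free symbol and the degree of each row. -/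
structure Listing where
  /-- The elements, as formal polynomials. -/
  p : ℕ → Poly
  /-- The symbols of row `j` are `b j, ..., b j + e j - 1`. -/
  b : ℕ → ℕ
  /-- The degrees. -/
  e : ℕ → ℕ
  b_succ : ∀ j, b (j + 1) = b j + e j

namespace Listing

variable (L : Listing)

/-- The monic equation of row `j`. -/
def eqn (j : ℕ) : Poly :=
  L.p j ^ L.e j + ∑ i ∈ Finset.range (L.e j), Poly.X (Sum.inr (L.b j + i)) * L.p j ^ i

/-- The element of row `j` only uses symbols of earlier rows. -/
def Guarded (j : ℕ) : Prop :=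
  ∀ {R : Type} [Ring R] (v v' : Var → R), (∀ a, v (Sum.inl a) = v' (Sum.inl a)) →
    (∀ i < L.b j, v (Sum.inr i) = v' (Sum.inr i)) → Poly.ev v (L.p j) = Poly.ev v' (L.p j)

end Listing

/-- A point. -/
structure Pt where
  /-- The centre. -/
  K : Type
  /-- The division algebra. -/
  D : Type
  [instK : Field K]
  [instC : Algebra ℂ K]
  [instD : DivisionRing D]
  [instA : Algebra K D]
  [instF : FiniteDimensional K D]
  /-- The two generators. -/
  xy : Bool → D
  /-- The symbols. -/
  c : ℕ → K

attribute [instance] Pt.instK Pt.instC Pt.instD Pt.instA Pt.instF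

namespace Pt

variable (P : Pt) (L : Listing)

/-- The values of the variables. -/
def val : Var → P.D
  | Sum.inl a => P.xy a
  | Sum.inr i => algebraMap P.K P.D (P.c i)

/-- The element of row `j`. -/
def q (j : ℕ) : P.D := Poly.ev P.val (L.p j)

/-- The first `n` equations hold. -/
def Solves (n : ℕ) : Prop := ∀ j < n, Poly.ev P.val (L.eqn j) = 0

/-- `x, y` generate `D`. -/
def Generates : Prop := Algebra.adjoin P.K (Set.range P.xy) = ⊤

/-- Directions: moves of the two generators and of the first `N` symbols. -/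
abbrev Dir (N : ℕ) : Type := (Bool → P.D) × (Fin N → P.K)

/-- A direction on all variables. -/
def dirVal {N : ℕ} (w : P.Dir N) : Var → P.D
  | Sum.inl a => w.1 a
  | Sum.inr i => if h : i < N then algebraMap P.K P.D (w.2 ⟨i, h⟩) else 0

theorem dirVal_add {N : ℕ} (w w' : P.Dir N) (z : Var) :
    P.dirVal (w + w') z = P.dirVal w z + P.dirVal w' z := by
  cases z with
  | inl a => rfl
  | inr i => by_cases h : i < N <;> simp [dirVal, h]

theorem dirVal_smul {N : ℕ} (s : P.K) (w : P.Dir N) (z : Var) :
    P.dirVal (s • w) z = s • P.dirVal w z := by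
  cases z with
  | inl a => rfl
  | inr i => by_cases h : i < N <;> simp [dirVal, h, Algebra.smul_def]

theorem d1_linear (x u u' : Var → P.D) (s : P.K) (p : Poly) :
    Poly.d1 x (u + u') p = Poly.d1 x u p + Poly.d1 x u' p ∧
      Poly.d1 x (s • u) p = s • Poly.d1 x u p := by
  induction p using FreeAlgebra.induction with
  | grade0 n => simp [Poly.d1, Poly.jet, Poly.ev, Matrix.intCast_apply]
  | grade1 z => simp [show FreeAlgebra.ι ℤ z = Poly.X z from rfl]
  | mul a b ha hb =>
    simp only [Poly.d1_mul, ha.1, ha.2, hb.1, hb.2, mul_add, add_mul, mul_smul_comm,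
      smul_mul_assoc, smul_add]
    exact ⟨by abel, trivial⟩
  | add a b ha hb =>
    simp only [Poly.d1_add, ha.1, ha.2, hb.1, hb.2, smul_add]
    exact ⟨by abel, trivial⟩

/-- The differential of the equation of row `j`. -/
def dEq (N : ℕ) (j : ℕ) : P.Dir N →ₗ[P.K] P.D where
  toFun w := Poly.d1 P.val (P.dirVal w) (L.eqn j)
  map_add' w w' := by
    rw [show P.dirVal (w + w') = P.dirVal w + P.dirVal w' from funext (P.dirVal_add w w')]
    exact (P.d1_linear _ _ _ 1 _).1
  map_smul' s w := by
    rw [show P.dirVal (s • w) = s • P.dirVal w from funext (P.dirVal_smul s w)]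
    exact (P.d1_linear _ _ 0 s _).2

/-- The scalars of row `j`: the span of the powers of its element. -/
def scalars (j : ℕ) : Submodule P.K P.D :=
  Submodule.span P.K (Set.range fun i : ℕ => P.q L j ^ i)

end Pt

/-- The data of the first `n` rows at a point. -/
structure Rows (L : Listing) (n : ℕ) (P : Pt) where
  /-- The linked motions. -/
  W : Fin n → Submodule P.K P.D
  /-- The partner motions. -/
  Pp : Fin n → Submodule P.K P.D
  /-- The projection onto `W` killing the partners. -/
  proj : Fin n → P.D →ₗ[P.K] P.D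
  /-- The projection onto `W ⊔ Pp`. -/
  projF : Fin n → P.D →ₗ[P.K] P.D
  proj_mem : ∀ j a, proj j a ∈ W j
  proj_self : ∀ j, ∀ a ∈ W j, proj j a = a
  proj_Pp : ∀ j, ∀ a ∈ Pp j, proj j a = 0
  projF_mem : ∀ j a, projF j a ∈ W j ⊔ Pp j
  projF_self : ∀ j, ∀ a ∈ W j ⊔ Pp j, projF j a = a
  proj_projF : ∀ j a, proj j (projF j a) = proj j a
  Pp_le : ∀ j : Fin n, Pp j ≤ P.scalars L j
  scalars_le : ∀ j : Fin n, P.scalars L j ≤ W j ⊔ Pp j

namespace Rows

variable {L : Listing} {n : ℕ} {P : Pt} (r : Rows L n P)

/-- Ambient directions: the symbols are fixed. -/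
abbrev Amb (P : Pt) : Type := Bool → P.D

/-- The linked parts of the row differentials, symbols fixed. -/
def J : Amb P →ₗ[P.K] ((j : Fin n) → r.W j) :=
  LinearMap.pi fun j =>
    ((r.proj j).comp ((P.dEq L (L.b n) j).comp (LinearMap.inl P.K _ _))).codRestrict (r.W j)
      fun _ => r.proj_mem j _

/-- The full row differentials. -/
def Jf : P.Dir (L.b n) →ₗ[P.K] ((j : Fin n) → ↥(r.W j ⊔ r.Pp j)) :=
  LinearMap.pi fun j =>
    ((r.projF j).comp (P.dEq L (L.b n) j)).codRestrict _ fun _ => r.projF_mem j _

/-- Tangents with fixed symbols. -/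
def T : Submodule P.K (Amb P) := LinearMap.ker r.J

/-- The identities. -/
def Y : Submodule P.K (Dual P.K ((j : Fin n) → r.W j)) := (LinearMap.range r.J).dualAnnihilator

/-- The number of identities. -/
def corank : ℕ := finrank P.K r.Y

/-- The second order form of a covector, at the ordered pair of directions `u`, `v`. -/
def form (y : Dual P.K ((j : Fin n) → r.W j)) (u v : Amb P) : P.K :=
  y fun j => ⟨r.proj j (Poly.d2 P.val (P.dirVal (N := L.b n) (u, 0))
    (P.dirVal (N := L.b n) (v, 0)) (L.eqn j)), r.proj_mem j _⟩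

/-- (S1), and that directions killed by the projections are true first order solutions. -/
structure Tight : Prop where
  surj : Function.Surjective r.Jf
  exact : ∀ w : P.Dir (L.b n), r.Jf w = 0 → ∀ j : Fin n, P.dEq L (L.b n) j w = 0
  fixed : ∀ u ∈ r.T, ∀ j : Fin n, P.dEq L (L.b n) j (u, 0) = 0

/-- The second order forms of the identities alternate on tangents. -/
def Alternating : Prop := ∀ y ∈ r.Y, ∀ u ∈ r.T, r.form y u u = 0

/-- Each nonzero identity has second order rank at least `R` on the tangents. -/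
def RankGE (R : ℕ) : Prop :=
  ∀ y ∈ r.Y, y ≠ 0 → ∀ S : Submodule P.K (Amb P), S ≤ r.T →
    (∀ u ∈ S, ∀ v ∈ r.T, r.form y u v = 0) → finrank P.K S + R ≤ finrank P.K r.T

end Rows

/-- A base change `D → D₁` along monomials commuting with the image of `D`. -/
structure Ext (P P₁ : Pt) where
  /-- On the centres. -/
  iK : P.K →+* P₁.K
  /-- On the algebras. -/
  iD : P.D →+* P₁.D
  map_algebraMap : ∀ a, iD (algebraMap P.K P.D a) = algebraMap P₁.K P₁.D (iK a)
  /-- The number of monomials. -/
  m : ℕ
  /-- The monomials. -/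
  mon : Fin m → P₁.D
  comm : ∀ a i, iD a * mon i = mon i * iD a
  mon_one : ∃ i, mon i = 1
  indep : ∀ {ι : Type} [Fintype ι] (bs : ι → P.D), LinearIndependent P.K bs →
    LinearIndependent P₁.K fun z : ι × Fin m => iD (bs z.1) * mon z.2
  finrank_eq : finrank P₁.K P₁.D = finrank P.K P.D * m
  xy_eq : ∀ a, P₁.xy a = iD (P.xy a)
  c_eq : ∀ i, P₁.c i = iK (P.c i)

/-- A point over Laurent series with integral coordinates and residue `P₁`. -/
structure Laur (P₁ Q : Pt) where
  /-- The centre is the Laurent field. -/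
  eK : LaurentSeries P₁.K ≃+* Q.K
  /-- The algebra is the Laurent algebra. -/
  eD : SkewLaurent (1 : RingAut P₁.D) ≃+* Q.D
  map_scalar : ∀ (z : LaurentSeries P₁.K) (n : ℤ),
    SkewLaurent.cf (eD.symm (algebraMap Q.K Q.D (eK z))) n = algebraMap P₁.K P₁.D (z.coeff n)
  xy_neg : ∀ a, ∀ n < 0, SkewLaurent.cf (eD.symm (Q.xy a)) n = 0
  xy_zero : ∀ a, SkewLaurent.cf (eD.symm (Q.xy a)) 0 = P₁.xy a
  c_neg : ∀ i, ∀ n < 0, (eK.symm (Q.c i)).coeff n = 0
  c_zero : ∀ i, (eK.symm (Q.c i)).coeff 0 = P₁.c i

/-- One step: an arc or a lift. -/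
def Step (P Q : Pt) : Prop := ∃ P₁, Nonempty (Ext P P₁) ∧ Nonempty (Laur P₁ Q)

end

end Vale.Agent.P199
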