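import Vale.Agent.P199.Stage.LiftGen
import Vale.Agent.P199.SeriesPoint
import Vale.Agent.P199.GlueListing

/-!
P199: central points, centres along the two base changes, generation of series lifts, and the stage the iteration starts
from.
-/

namespace Vale.Agent.P199

noncomputable section

open Module

/-- The scalars are the centre. -/
def Pt.Central (P : Pt) : Prop :=
  ∀ d : P.D, (∀ t, d * t = t * d) → ∃ r : P.K, algebraMap P.K P.D r = d

theorem Pt.central_iff (P : Pt) : P.Central ↔ Algebra.IsCentral P.K P.D := by
  constructor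
  · intro h
    refine ⟨fun z hz => Algebra.mem_bot.2 ?_⟩
    exact h z fun t => (Subalgebra.mem_center_iff.1 hz t).symm
  · intro h d hd
    have h2 : d ∈ Subalgebra.center P.K P.D := Subalgebra.mem_center_iff.2 fun t => (hd t).symm
    rw [Algebra.IsCentral.center_eq_bot, Algebra.mem_bot] at h2
    exact h2

theorem central_symPt {P : Pt} (S : SymData P) (h : P.Central) : S.pt.Central := by
  let _ := S.algebra
  have := P.charZero
  have := P.central_iff.1 h
  have hc : Algebra.IsCentral S.Scalar S.Alg :=
    isCentral_sym S.unit S.unit_central S.pos S.unit_order fun _ => rfl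
  exact S.pt.central_iff.2 hc

theorem central_laurPt {P₁ : Pt} (T : LaurData P₁) (h : P₁.Central) : T.pt.Central := by
  let _ := laurentAlgebra (K := P₁.K) (D := P₁.D)
  have := P₁.central_iff.1 h
  have hc : Algebra.IsCentral (LaurentSeries P₁.K) (SkewLaurent (1 : RingAut P₁.D)) :=
    isCentral_laurent fun _ => rfl
  exact T.pt.central_iff.2 hc

theorem finrank_symPt {P : Pt} (S : SymData P) :
    finrank S.pt.K S.pt.D = finrank P.K P.D * (S.l * S.l) :=
  S.ext.finrank_eq

namespace SeriesPoint

variable {P : Pt} (S : SymData P) (X : ℕ → Bool → S.pt.D) (Cs : ℕ → ℕ → S.pt.K)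
  (hX : X 0 = S.pt.xy) (hC : Cs 0 = S.pt.c)

/-- A series point over a lift with first coefficient `a U + b V` generates. -/
theorem generates_data (hP : P.Generates) (hK : P.Central) {a b : Bool → P.D}
    (hX1 : ∀ i, X 1 i = S.ext.iD (a i) * S.U + S.ext.iD (b i) * S.V) (hab : P.IndepInner a b) :
    (data X Cs hX hC).pt.Generates := by
  refine S.generates_lift (data X Cs hX hC).laur hP hK (fun i => ?_) hab
    (data X Cs hX hC).finrank_pt.le
  rw [← hX1 i]
  show SkewLaurent.cf (LaurentAlg.psE (PowerSeries.mk fun m => X m i)) ((1 : ℕ) : ℤ) = _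
  rw [LaurentAlg.cf_psE, PowerSeries.coeff_mk]

end SeriesPoint

namespace Glue

/-- A point is a stage with no rows. -/
def noRows (L : Listing) (P : Pt) : Rows L 0 P where
  W j := j.elim0
  Pp j := j.elim0
  proj j := j.elim0
  projF j := j.elim0
  proj_mem j := j.elim0
  proj_self j := j.elim0
  proj_Pp j := j.elim0
  projF_mem j := j.elim0
  projF_self j := j.elim0
  proj_projF j := j.elim0
  Pp_le j := j.elim0
  scalars_le j := j.elim0

theorem noRows_tight (L : Listing) (P : Pt) : (noRows L P).Tight where
  surj _ := ⟨0, funext fun j => j.elim0⟩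
  exact _ _ j := j.elim0
  fixed _ _ j := j.elim0

theorem noRows_T (L : Listing) (P : Pt) : (noRows L P).T = ⊤ :=
  Submodule.eq_top_iff'.2 fun _ => LinearMap.mem_ker.2 (funext fun j => j.elim0)

theorem noRows_Y (L : Listing) (P : Pt) (y : (noRows L P).Y) : y = 0 :=
  Subtype.ext (LinearMap.ext fun v => by
    rw [show v = 0 from funext fun j => j.elim0, map_zero, map_zero])

theorem noRows_corank (L : Listing) (P : Pt) : (noRows L P).corank = 0 := by
  have : Subsingleton (noRows L P).Y :=
    ⟨fun y z => (noRows_Y L P y).trans (noRows_Y L P z).symm⟩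
  exact finrank_zero_of_subsingleton (R := P.K) (M := (noRows L P).Y)

theorem noRows_alternating (L : Listing) (P : Pt) : (noRows L P).Alternating := fun y hy u _ => by
  rw [show y = 0 from congrArg Subtype.val (noRows_Y L P ⟨y, hy⟩), Rows.form, LinearMap.zero_apply]

theorem noRows_rankGE (L : Listing) (P : Pt) (R : ℕ) : (noRows L P).RankGE R := fun y hy h0 =>
  absurd (congrArg Subtype.val (noRows_Y L P ⟨y, hy⟩)) h0

theorem noRows_budget (L : Listing) (P : Pt) :
    ∑ j, finrank P.K ((noRows L P).W j) < finrank P.K P.D := by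
  rw [Fintype.sum_empty]
  exact Module.finrank_pos

theorem basePt_central : basePt.Central := fun d _ => ⟨d, rfl⟩

theorem basePt_finrank : finrank basePt.K basePt.D = 1 := Module.finrank_self _

end Glue

end

end Vale.Agent.P199
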