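import Vale.Agent.P199.Stage.Pt
import Vale.Agent.P199.LaurentAlg

/-!
P199: generation passes to a point over Laurent series when the leading coefficients of the generated algebra fill the
residue algebra.
-/

namespace Vale.Agent.P199

noncomputable section

open Module LaurentAlg SkewLaurent

theorem cf_neg_psE {D : Type} [DivisionRing D] (p : PowerSeries D) {n : ℤ} (hn : n < 0) :
    cf (psE p) n = 0 := by
  show cf (toE (HahnSeries.ofPowerSeries ℤ D p)) n = 0
  rw [cf_toE, HahnSeries.ofPowerSeries_apply, HahnSeries.embDomain_of_notMem_range]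
  rintro ⟨m, rfl⟩
  exact absurd hn (not_lt.2 (Int.natCast_nonneg m))

theorem exists_psE_of_integral {D : Type} [DivisionRing D] {f : SkewLaurent (1 : RingAut D)}
    (hf : ∀ n < 0, cf f n = 0) : ∃ p : PowerSeries D, psE p = f := by
  refine ⟨PowerSeries.mk fun n => cf f n, ext_cf fun n => ?_⟩
  rcases lt_or_ge n 0 with h | h
  · rw [cf_neg_psE _ h, hf n h]
  · obtain ⟨m, rfl⟩ := Int.eq_ofNat_of_zero_le h
    rw [cf_psE, PowerSeries.coeff_mk]

namespace Laur

variable {P₁ Q : Pt} (h : Laur P₁ Q)

/-- The algebra generated by the two elements. -/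
abbrev gen (_ : Laur P₁ Q) : Subalgebra Q.K Q.D := Algebra.adjoin Q.K (Set.range Q.xy)

/-- The integral series inside `Q.D`. -/
def emb : PowerSeries P₁.D →+* Q.D := h.eD.toRingHom.comp psE

theorem emb_apply (p : PowerSeries P₁.D) : h.emb p = h.eD (psE p) := rfl

/-- The scalar series are integral with the right coefficients. -/
theorem eD_scalar (z : PowerSeries P₁.K) :
    h.eD (psE (PowerSeries.map (algebraMap P₁.K P₁.D) z)) =
      algebraMap Q.K Q.D (h.eK (HahnSeries.ofPowerSeries ℤ P₁.K z)) := by
  apply h.eD.symm.injective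
  rw [RingEquiv.symm_apply_apply]
  refine ext_cf fun n => ?_
  rw [h.map_scalar]
  rcases lt_or_ge n 0 with hn | hn
  · rw [cf_neg_psE _ hn, HahnSeries.ofPowerSeries_apply, HahnSeries.embDomain_of_notMem_range,
      map_zero]
    rintro ⟨m, rfl⟩
    exact absurd hn (not_lt.2 (Int.natCast_nonneg m))
  · obtain ⟨m, rfl⟩ := Int.eq_ofNat_of_zero_le hn
    rw [cf_psE, HahnSeries.ofPowerSeries_apply_coeff, PowerSeries.coeff_map]

/-- The leading coefficients of the integral elements of the generated algebra. -/
def leadAlg : Subalgebra P₁.K P₁.D where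
  carrier := {a | ∃ p : PowerSeries P₁.D, h.eD (psE p) ∈ h.gen ∧ PowerSeries.constantCoeff p = a}
  mul_mem' := by
    rintro a b ⟨p, hp, rfl⟩ ⟨p', hp', rfl⟩
    exact ⟨p * p', by rw [← emb_apply, map_mul]; exact mul_mem hp hp', map_mul _ _ _⟩
  one_mem' := ⟨1, by rw [← emb_apply, map_one]; exact one_mem _, map_one _⟩
  add_mem' := by
    rintro a b ⟨p, hp, rfl⟩ ⟨p', hp', rfl⟩
    exact ⟨p + p', by rw [← emb_apply, map_add]; exact add_mem hp hp', map_add _ _ _⟩
  zero_mem' := ⟨0, by rw [← emb_apply, map_zero]; exact zero_mem _, map_zero _⟩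
  algebraMap_mem' a := ⟨PowerSeries.map (algebraMap P₁.K P₁.D) (PowerSeries.C a),
    by rw [h.eD_scalar]; exact Subalgebra.algebraMap_mem _ _,
    by rw [PowerSeries.map_C, PowerSeries.constantCoeff_C]⟩

theorem mem_leadAlg {a : P₁.D} {p : PowerSeries P₁.D} (hp : h.eD (psE p) ∈ h.gen)
    (ha : PowerSeries.constantCoeff p = a) : a ∈ h.leadAlg := ⟨p, hp, ha⟩

/-- The integral series of a generator. -/
theorem exists_xy (a : Bool) : ∃ p : PowerSeries P₁.D,
    h.eD (psE p) = Q.xy a ∧ PowerSeries.constantCoeff p = P₁.xy a := by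
  obtain ⟨p, hp⟩ := exists_psE_of_integral (h.xy_neg a)
  refine ⟨p, by rw [hp, RingEquiv.apply_symm_apply], ?_⟩
  rw [← h.xy_zero a, ← hp, ← Nat.cast_zero, cf_psE]
  exact (PowerSeries.coeff_zero_eq_constantCoeff_apply p).symm

theorem xy_mem_leadAlg (a : Bool) : P₁.xy a ∈ h.leadAlg := by
  obtain ⟨p, hp, h0⟩ := h.exists_xy a
  exact ⟨p, hp ▸ Algebra.subset_adjoin ⟨a, rfl⟩, h0⟩

/-- An element of the generated algebra with vanishing lead may be divided by the parameter. -/
theorem shift_mem {p p' : PowerSeries P₁.D} (hp : h.eD (psE p) ∈ h.gen)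
    (he : p = PowerSeries.X * p') : h.eD (psE p') ∈ h.gen := by
  have hX : (PowerSeries.map (algebraMap P₁.K P₁.D) PowerSeries.X) = PowerSeries.X :=
    PowerSeries.map_X _
  have h1 := h.eD_scalar PowerSeries.X
  rw [hX] at h1
  set t := h.eK (HahnSeries.ofPowerSeries ℤ P₁.K PowerSeries.X)
  have ht : t ≠ 0 := by
    intro h0
    have := (h.eK.injective.eq_iff' (map_zero _)).1 h0
    exact PowerSeries.X_ne_zero
      (HahnSeries.ofPowerSeries_injective (this.trans (map_zero _).symm))
  rw [he, ← emb_apply, map_mul, emb_apply, h1, ← Algebra.smul_def] at hp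
  have := h.gen.smul_mem hp t⁻¹
  rwa [inv_smul_smul₀ ht] at this

/-- Full leads give generation. -/
theorem generates (htop : h.leadAlg = ⊤) (hfin : finrank Q.K Q.D ≤ finrank P₁.K P₁.D) :
    Q.Generates := by
  let b := Module.finBasis P₁.K P₁.D
  have hb : ∀ i, ∃ p : PowerSeries P₁.D, h.eD (psE p) ∈ h.gen ∧
      PowerSeries.constantCoeff p = b i := fun i => by
    have : b i ∈ h.leadAlg := htop ▸ Algebra.mem_top
    exact this
  choose p hp hp0 using hb
  have hind : LinearIndependent Q.K fun i => h.eD (psE (p i)) := by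
    rw [Fintype.linearIndependent_iff]
    intro g hg
    by_contra hne
    push Not at hne
    have hind' : ∀ z : Fin (finrank P₁.K P₁.D) → PowerSeries P₁.K,
        ∑ i, PowerSeries.map (algebraMap P₁.K P₁.D) (z i) * p i = 0 → ∀ i, z i = 0 := by
      intro z hz
      have main : ∀ (m : ℕ) i, PowerSeries.coeff m (z i) = 0 := by
        intro m
        induction m using Nat.strong_induction_on with
        | _ m ih =>
          intro i
          have hm := congrArg (PowerSeries.coeff m) hz
          rw [map_sum, map_zero] at hm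
          have hterm : ∀ i, PowerSeries.coeff m (PowerSeries.map (algebraMap P₁.K P₁.D) (z i) * p i)
              = PowerSeries.coeff m (z i) • b i := by
            intro i
            rw [PowerSeries.coeff_mul, Finset.sum_eq_single (m, 0), PowerSeries.coeff_map,
              PowerSeries.coeff_zero_eq_constantCoeff_apply, hp0, Algebra.smul_def]
            · intro q hq hq'
              have hq1 : q.1 < m := by
                rw [Finset.HasAntidiagonal.mem_antidiagonal] at hq
                rcases Nat.lt_or_ge q.1 m with h | h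
                · exact h
                · exact absurd (Prod.ext (by simp only; omega) (by simp only; omega)) hq'
              rw [PowerSeries.coeff_map, ih q.1 hq1, map_zero, zero_mul]
            · intro hn
              exact absurd (Finset.HasAntidiagonal.mem_antidiagonal.2 (by simp)) hn
          simp only [hterm] at hm
          exact Fintype.linearIndependent_iff.1 b.linearIndependent _ hm i
      exact fun i => PowerSeries.ext fun m => by rw [main m i, map_zero]
    obtain ⟨i₀, hi₀⟩ := hne
    -- clear the poles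
    have hclear : ∀ f : LaurentSeries P₁.K, ∃ (k : ℕ) (z : PowerSeries P₁.K),
        HahnSeries.single (k : ℤ) (1 : P₁.K) * f = HahnSeries.ofPowerSeries ℤ P₁.K z := by
      intro f
      refine ⟨(-f.order).toNat, PowerSeries.mk fun n => f.coeff ((n : ℤ) - (-f.order).toNat), ?_⟩
      refine HahnSeries.ext (funext fun n => ?_)
      rw [HahnSeries.coeff_single_mul, one_mul]
      rcases lt_or_ge n 0 with hn | hn
      · rw [HahnSeries.ofPowerSeries_apply, HahnSeries.embDomain_of_notMem_range]
        · exact HahnSeries.coeff_eq_zero_of_lt_order (by omega)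
        · rintro ⟨m, rfl⟩
          exact absurd hn (not_lt.2 (Int.natCast_nonneg m))
      · obtain ⟨m, rfl⟩ := Int.eq_ofNat_of_zero_le hn
        rw [HahnSeries.ofPowerSeries_apply_coeff, PowerSeries.coeff_mk]
    choose k z hkz using fun i => hclear (h.eK.symm (g i))
    set N := ∑ i, k i
    let z' := fun i => PowerSeries.X ^ (N - k i) * z i
    have hz' : ∀ i, HahnSeries.ofPowerSeries ℤ P₁.K (z' i) =
        HahnSeries.single (N : ℤ) (1 : P₁.K) * h.eK.symm (g i) := by
      intro i
      rw [map_mul, ← hkz, ← mul_assoc, HahnSeries.ofPowerSeries_X_pow,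
        HahnSeries.single_mul_single, mul_one]
      have hle : k i ≤ N := Finset.single_le_sum (fun j _ => Nat.zero_le (k j)) (Finset.mem_univ i)
      congr 2
      rw [Nat.cast_sub hle]
      rw [sub_add_cancel]
    have hsum : ∑ i, PowerSeries.map (algebraMap P₁.K P₁.D) (z' i) * p i = 0 := by
      refine psE_injective (h.eD.injective ?_)
      rw [← emb_apply, ← emb_apply, map_sum, map_zero]
      simp only [emb_apply]
      have : ∀ i, h.eD (psE (PowerSeries.map (algebraMap P₁.K P₁.D) (z' i) * p i)) =
          h.eK (HahnSeries.single (N : ℤ) (1 : P₁.K)) • (g i • h.eD (psE (p i))) := by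
        intro i
        rw [← emb_apply, map_mul, emb_apply, emb_apply, h.eD_scalar, hz', map_mul,
          RingEquiv.apply_symm_apply, map_mul, Algebra.smul_def, Algebra.smul_def, mul_assoc]
      simp only [this, ← Finset.smul_sum, hg, smul_zero]
    have h0 := hind' z' hsum i₀
    have h2 := hz' i₀
    rw [h0, map_zero] at h2
    rcases mul_eq_zero.1 h2.symm with h3 | h3
    · exact one_ne_zero (HahnSeries.single_eq_zero_iff.1 h3)
    · exact hi₀ (by simpa using congrArg h.eK h3)
  have hspan : Submodule.span Q.K (Set.range fun i => h.eD (psE (p i))) = ⊤ := by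
    refine Submodule.eq_top_of_finrank_eq (le_antisymm (Submodule.finrank_le _) ?_)
    rw [finrank_span_eq_card hind, Fintype.card_fin]
    exact hfin
  refine eq_top_iff.2 fun x _ => ?_
  have hx : x ∈ Submodule.span Q.K (Set.range fun i => h.eD (psE (p i))) := hspan ▸ Submodule.mem_top
  refine (Submodule.span_le (p := Subalgebra.toSubmodule (Algebra.adjoin Q.K (Set.range Q.xy)))).2 ?_ hx
  rintro _ ⟨i, rfl⟩
  exact hp i

/-- The residue algebra generated by `P` is inside the leads. -/
theorem iD_mem_leadAlg {P : Pt} (X : Ext P P₁) (hP : P.Generates) (a : P.D) :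
    X.iD a ∈ h.leadAlg := by
  have ha : a ∈ Algebra.adjoin P.K (Set.range P.xy) := hP ▸ Algebra.mem_top
  induction ha using Algebra.adjoin_induction with
  | mem x hx =>
    obtain ⟨b, rfl⟩ := hx
    rw [← X.xy_eq]
    exact h.xy_mem_leadAlg b
  | algebraMap r => rw [X.map_algebraMap]; exact Subalgebra.algebraMap_mem _ _
  | add a b _ _ ha hb => rw [map_add]; exact add_mem ha hb
  | mul a b _ _ ha hb => rw [map_mul]; exact mul_mem ha hb

/-- Generation from the monomials being leads. -/
theorem generates_of_mon {P : Pt} (X : Ext P P₁) (hP : P.Generates)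
    (hmon : ∀ i, X.mon i ∈ h.leadAlg) (hfin : finrank Q.K Q.D ≤ finrank P₁.K P₁.D) :
    Q.Generates := by
  refine h.generates (eq_top_iff.2 fun a _ => ?_) hfin
  let b := Module.finBasis P.K P.D
  have hind := X.indep b b.linearIndependent
  have hspan : Submodule.span P₁.K
      (Set.range fun z : Fin (finrank P.K P.D) × Fin X.m => X.iD (b z.1) * X.mon z.2) = ⊤ := by
    refine Submodule.eq_top_of_finrank_eq ?_
    rw [finrank_span_eq_card hind, Fintype.card_prod, Fintype.card_fin, Fintype.card_fin,
      X.finrank_eq]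
  have ha : a ∈ Submodule.span P₁.K
      (Set.range fun z : Fin (finrank P.K P.D) × Fin X.m => X.iD (b z.1) * X.mon z.2) :=
    hspan ▸ Submodule.mem_top
  refine (Submodule.span_le (p := Subalgebra.toSubmodule h.leadAlg)).2 ?_ ha
  rintro _ ⟨z, rfl⟩
  exact h.leadAlg.mul_mem (h.iD_mem_leadAlg X hP _) (hmon _)

end Laur

end

end Vale.Agent.P199
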