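import Vale.Agent.P199.Stage.Generation
import Vale.Agent.P199.SymbolPoint
import Vale.Agent.P199.Field.Extend

/-!
P199: a lift along `a U + b V` still generates when `a`, `b` are independent modulo inner motions.
-/

namespace Vale.Agent.P199

noncomputable section

open LaurentAlg SkewLaurent

/-- A derivation of a central finite dimensional division algebra killing the centre is inner. -/
theorem exists_inner {K D : Type} [Field K] [DivisionRing D] [Algebra K D] [FiniteDimensional K D]
    (hK : ∀ d : D, (∀ t, d * t = t * d) → ∃ r : K, algebraMap K D r = d)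
    (δ : D →ₗ[K] D) (hδ : ∀ u v, δ (u * v) = u * δ v + δ u * v) :
    ∃ c, ∀ a, δ a = a * c - c * a := by
  obtain ⟨n, e, y, h1, hsep⟩ := Vale.P199.Fld.exists_separability hK
  refine ⟨∑ k, e k * δ (y k), fun a => ?_⟩
  have h := hsep a (fun u => LinearMap.mulLeft K (δ u))
    (fun u v => by ext; simp [add_mul]) (fun r u => by ext; simp)
  simp only [LinearMap.mulLeft_apply, mul_one, hδ, mul_add, ← mul_assoc, Finset.sum_add_distrib,
    ← Finset.sum_mul, h1, one_mul] at h
  rw [Finset.mul_sum, Finset.sum_mul]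
  simp only [← mul_assoc]
  rw [h, ← Finset.sum_mul, add_sub_cancel_right]

/-- Two motions of the generators are independent modulo inner ones. -/
def Pt.IndepInner (P : Pt) (a b : Bool → P.D) : Prop :=
  ∀ α β : P.K, (∃ c, ∀ i, α • a i + β • b i = P.xy i * c - c * P.xy i) → α = 0 ∧ β = 0

namespace Laur

variable {P P₁ Q : Pt} (h : Laur P₁ Q) (X : Ext P P₁) (U V : P₁.D)

/-- Values with their first order parts. -/
def Graph (d : P.D) (m : P.D × P.D) : Prop :=
  ∃ p : PowerSeries P₁.D, h.eD (psE p) ∈ h.gen ∧ PowerSeries.constantCoeff p = X.iD d ∧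
    PowerSeries.coeff 1 p = X.iD m.1 * U + X.iD m.2 * V

theorem coeff_one_mul' {R : Type} [Semiring R] (p q : PowerSeries R) :
    PowerSeries.coeff 1 (p * q) = PowerSeries.constantCoeff p * PowerSeries.coeff 1 q +
      PowerSeries.coeff 1 p * PowerSeries.constantCoeff q := by
  rw [PowerSeries.coeff_mul, Finset.Nat.sum_antidiagonal_eq_sum_range_succ_mk]
  simp [Finset.sum_range_succ]

variable {U V} (hU : ∀ d, X.iD d * U = U * X.iD d) (hV : ∀ d, X.iD d * V = V * X.iD d)

theorem graph_const (r : P.K) : h.Graph X U V (algebraMap P.K P.D r) 0 := by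
  refine ⟨PowerSeries.map (algebraMap P₁.K P₁.D) (PowerSeries.C (X.iK r)), ?_, ?_, ?_⟩
  · rw [h.eD_scalar]; exact Subalgebra.algebraMap_mem _ _
  · rw [PowerSeries.map_C, PowerSeries.constantCoeff_C, X.map_algebraMap]
  · simp [PowerSeries.map_C]

theorem graph_add {d d' : P.D} {m m' : P.D × P.D} (hd : h.Graph X U V d m)
    (hd' : h.Graph X U V d' m') : h.Graph X U V (d + d') (m + m') := by
  obtain ⟨p, hp, h0, h1⟩ := hd
  obtain ⟨p', hp', h0', h1'⟩ := hd'
  refine ⟨p + p', ?_, by rw [map_add, h0, h0', map_add], ?_⟩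
  · rw [← emb_apply, map_add]; exact add_mem hp hp'
  · rw [map_add, h1, h1', Prod.fst_add, Prod.snd_add, map_add, map_add, add_mul, add_mul]
    abel

include hU hV in
theorem graph_mul {d d' : P.D} {m m' : P.D × P.D} (hd : h.Graph X U V d m)
    (hd' : h.Graph X U V d' m') :
    h.Graph X U V (d * d') (d * m'.1 + m.1 * d', d * m'.2 + m.2 * d') := by
  obtain ⟨p, hp, h0, h1⟩ := hd
  obtain ⟨p', hp', h0', h1'⟩ := hd'
  refine ⟨p * p', ?_, by rw [map_mul, h0, h0', map_mul], ?_⟩
  · rw [← emb_apply, map_mul]; exact mul_mem hp hp'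
  · rw [coeff_one_mul', h0, h0', h1, h1']
    simp only [map_add, map_mul, mul_add, add_mul, mul_assoc, ← hU d', ← hV d']
    abel

/-- The lift generates. -/
theorem generates_lift (hP : P.Generates)
    (hK : ∀ d : P.D, (∀ t, d * t = t * d) → ∃ r : P.K, algebraMap P.K P.D r = d)
    (hU : ∀ d, X.iD d * U = U * X.iD d) (hV : ∀ d, X.iD d * V = V * X.iD d)
    (hmon : ∀ i, X.mon i ∈ Algebra.adjoin P₁.K ({U, V} : Set P₁.D))
    {a b : Bool → P.D} (hx : ∀ i, cf (h.eD.symm (Q.xy i)) 1 = X.iD (a i) * U + X.iD (b i) * V)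
    (hab : P.IndepInner a b)
    (hfin : Module.finrank Q.K Q.D ≤ Module.finrank P₁.K P₁.D) : Q.Generates := by
  have hD : ∀ d, X.iD d ∈ h.leadAlg := h.iD_mem_leadAlg X hP
  suffices hUV : U ∈ h.leadAlg ∧ V ∈ h.leadAlg by
    refine h.generates_of_mon X hP (fun i => ?_) hfin
    exact Algebra.adjoin_le (Set.insert_subset hUV.1 (Set.singleton_subset_iff.2 hUV.2)) (hmon i)
  let M : P.D × P.D → Prop := fun m => X.iD m.1 * U + X.iD m.2 * V ∈ h.leadAlg
  have Madd : ∀ {m m'}, M m → M m' → M (m + m') := fun {m m'} hm hm' => by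
    show _ ∈ h.leadAlg
    convert add_mem hm hm' using 1
    rw [Prod.fst_add, Prod.snd_add, map_add, map_add, add_mul, add_mul]
    abel
  have Mmul : ∀ {m} (d : P.D), M m → M (d * m.1, d * m.2) := fun {m} d hm => by
    show _ ∈ h.leadAlg
    convert mul_mem (hD d) hm using 1
    simp [mul_add, mul_assoc]
  have Mmulr : ∀ {m} (d : P.D), M m → M (m.1 * d, m.2 * d) := fun {m} d hm => by
    show _ ∈ h.leadAlg
    convert mul_mem hm (hD d) using 1
    simp only [map_mul, add_mul, mul_assoc, ← hU, ← hV]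
  have Mneg : ∀ {m}, M m → M (-m) := fun {m} hm => by
    have := Mmul (-1) hm
    rw [neg_one_mul, neg_one_mul] at this
    exact this
  have Msub : ∀ {m m'}, M m → M m' → M (m - m') := fun hm hm' => by
    rw [sub_eq_add_neg]; exact Madd hm (Mneg hm')
  have hlead : ∀ {m}, h.Graph X U V 0 m → M m := by
    rintro m ⟨p, hp, h0, h1⟩
    obtain ⟨p', hp'⟩ : PowerSeries.X ∣ p := PowerSeries.X_dvd_iff.2 (h0.trans (map_zero _))
    refine h.mem_leadAlg (h.shift_mem hp hp') ?_
    rw [← PowerSeries.coeff_zero_eq_constantCoeff_apply, ← PowerSeries.coeff_succ_X_mul 0 p',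
      ← hp', h1]
  by_contra hcon
  obtain ⟨α, β, hαβ, hkill⟩ : ∃ α β : P.K, ¬(α = 0 ∧ β = 0) ∧
      ∀ m, M m → α • m.1 + β • m.2 = 0 := by
    by_cases h10 : M (1, 0)
    · refine ⟨0, 1, by simp, fun m hm => ?_⟩
      by_contra hm2
      simp only [zero_smul, one_smul, zero_add] at hm2
      have h02 : M (0, m.2) := by
        convert Msub hm (Mmul m.1 h10) using 1
        ext <;> simp
      have h01 : M (0, 1) := by simpa [inv_mul_cancel₀ hm2] using Mmul m.2⁻¹ h02
      exact hcon ⟨by simpa [M] using h10, by simpa [M] using h01⟩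
    · have hfst : ∀ m, M m → m.2 = 0 → m.1 = 0 := by
        intro m hm h2
        by_contra h1
        exact h10 (by simpa [h2, inv_mul_cancel₀ h1] using Mmul m.1⁻¹ hm)
      by_cases h2 : ∀ m, M m → m.2 = 0
      · exact ⟨1, 0, by simp, fun m hm => by simp [hfst m hm (h2 m hm)]⟩
      · push Not at h2
        obtain ⟨m, hm, hm2⟩ := h2
        have ht : M (m.2⁻¹ * m.1, 1) := by simpa [inv_mul_cancel₀ hm2] using Mmul m.2⁻¹ hm
        set t := m.2⁻¹ * m.1
        obtain ⟨τ, hτ⟩ := hK t fun d =>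
          (sub_eq_zero.1 (hfst _ (Msub (Mmul d ht) (Mmulr d ht)) (by simp))).symm
        refine ⟨1, -τ, by simp, fun m' hm' => ?_⟩
        have h1 := hfst _ (Msub hm' (Mmul m'.2 ht)) (by simp)
        have hcm := Algebra.commutes τ m'.2
        rw [hτ] at hcm
        simpa [Algebra.smul_def, hτ, hcm, sub_eq_add_neg] using h1
  have hgraph : ∀ d, ∃ m, h.Graph X U V d m := by
    intro d
    have hd : d ∈ Algebra.adjoin P.K (Set.range P.xy) := hP ▸ Algebra.mem_top
    induction hd using Algebra.adjoin_induction with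
    | mem x hx' =>
      obtain ⟨i, rfl⟩ := hx'
      obtain ⟨p, hp, h0⟩ := h.exists_xy i
      refine ⟨(a i, b i), p, hp ▸ Algebra.subset_adjoin ⟨i, rfl⟩, by rw [h0, X.xy_eq], ?_⟩
      rw [← hx i, ← hp, RingEquiv.symm_apply_apply]
      exact (cf_psE p 1).symm
    | algebraMap r => exact ⟨0, h.graph_const X r⟩
    | add x y _ _ hx' hy' => exact ⟨_, h.graph_add X hx'.choose_spec hy'.choose_spec⟩
    | mul x y _ _ hx' hy' => exact ⟨_, h.graph_mul X hU hV hx'.choose_spec hy'.choose_spec⟩
  choose g hg using hgraph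
  have gneg : ∀ {d m}, h.Graph X U V d m → h.Graph X U V (-d) (-m) := fun {d m} hd => by
    convert h.graph_mul X hU hV (h.graph_const X (-1)) hd using 1
    · simp
    · ext <;> simp
  have huniq : ∀ {d m}, h.Graph X U V d m → α • m.1 + β • m.2 = α • (g d).1 + β • (g d).2 := by
    intro d m hd
    have h0 := h.graph_add X hd (gneg (hg d))
    rw [add_neg_cancel] at h0
    have := hkill _ (hlead h0)
    simp only [Prod.fst_add, Prod.snd_add, Prod.fst_neg, Prod.snd_neg, smul_add, smul_neg] at this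
    rw [← sub_eq_zero, ← this]
    abel
  have gmul : ∀ u v, α • (g (u * v)).1 + β • (g (u * v)).2 =
      u * (α • (g v).1 + β • (g v).2) + (α • (g u).1 + β • (g u).2) * v := fun u v => by
    rw [← huniq (h.graph_mul X hU hV (hg u) (hg v))]
    simp only [smul_add, mul_add, add_mul, mul_smul_comm, smul_mul_assoc]
    abel
  let δ : P.D →ₗ[P.K] P.D :=
    { toFun := fun d => α • (g d).1 + β • (g d).2
      map_add' := fun u v => by
        rw [← huniq (h.graph_add X (hg u) (hg v))]
        simp only [Prod.fst_add, Prod.snd_add, smul_add]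
        abel
      map_smul' := fun r d => by
        rw [show r • d = algebraMap P.K P.D r * d from Algebra.smul_def r d, gmul,
          ← huniq (h.graph_const X r)]
        simp [Algebra.smul_def] }
  obtain ⟨c, hc⟩ := exists_inner hK δ gmul
  refine hαβ (hab α β ⟨c, fun i => ?_⟩)
  rw [← hc]
  obtain ⟨p, hp, h0⟩ := h.exists_xy i
  refine huniq (m := (a i, b i))
    ⟨p, hp ▸ Algebra.subset_adjoin ⟨i, rfl⟩, by rw [h0, X.xy_eq], ?_⟩
  rw [← hx i, ← hp, RingEquiv.symm_apply_apply]
  exact (cf_psE p 1).symm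

end Laur

theorem pow_mul_pow_mem {K A : Type} [CommSemiring K] [Semiring A] [Algebra K A] (u v : A)
    (i j : ℕ) : u ^ i * v ^ j ∈ Algebra.adjoin K ({u, v} : Set A) :=
  (Algebra.adjoin K ({u, v} : Set A)).mul_mem
    (Subalgebra.pow_mem _ (Algebra.subset_adjoin (Set.mem_insert u {v})) i)
    (Subalgebra.pow_mem _ (Algebra.subset_adjoin (Set.mem_insert_of_mem u (Set.mem_singleton v))) j)

namespace SymData

variable {P : Pt} (S : SymData P)

/-- `U` in the lifted algebra. -/
def U : S.pt.D := symU S.unit S.unit_central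

/-- `V` in the lifted algebra. -/
def V : S.pt.D := symV S.unit S.unit_central

theorem U_comm (d : P.D) : S.ext.iD d * S.U = S.U * S.ext.iD d :=
  (symC_commute S.unit S.unit_central d).1.symm.eq

theorem V_comm (d : P.D) : S.ext.iD d * S.V = S.V * S.ext.iD d :=
  (symC_commute S.unit S.unit_central d).2.symm.eq

theorem mon_mem (i : Fin S.ext.m) :
    S.ext.mon i ∈ Algebra.adjoin S.pt.K ({S.U, S.V} : Set S.pt.D) := by
  have e : S.ext.mon i = S.U ^ ((finProdFinEquiv.symm i).1 : ℕ) *
      S.V ^ ((finProdFinEquiv.symm i).2 : ℕ) := rfl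
  rw [e]
  exact pow_mul_pow_mem _ _ _ _

/-- The lift along the symbol algebra generates. -/
theorem generates_lift {Q : Pt} (h : Laur S.pt Q) (hP : P.Generates)
    (hK : ∀ d : P.D, (∀ t, d * t = t * d) → ∃ r : P.K, algebraMap P.K P.D r = d)
    {a b : Bool → P.D}
    (hx : ∀ i, cf (h.eD.symm (Q.xy i)) 1 = S.ext.iD (a i) * S.U + S.ext.iD (b i) * S.V)
    (hab : P.IndepInner a b)
    (hfin : Module.finrank Q.K Q.D ≤ Module.finrank S.pt.K S.pt.D) : Q.Generates :=
  h.generates_lift S.ext hP hK S.U_comm S.V_comm S.mon_mem hx hab hfin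

end SymData

end

end Vale.Agent.P199
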