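import Mathlib

/-!
P199: equations of a stage as noncommutative polynomials in `x`, `y` and the symbols, with their first and second
derivatives, both read off from one homomorphism into upper triangular `3 × 3` matrices.
-/

namespace Vale.Agent.P199

noncomputable section

/-- The variables: the two generators and the symbols (evaluated at central elements). -/
abbrev Var : Type := Bool ⊕ ℕ

/-- The formal polynomials. -/
abbrev Poly : Type := FreeAlgebra ℤ Var

namespace Poly

variable {R S : Type*} [Ring R] [Ring S]

/-- Evaluation. -/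
def ev (v : Var → R) : Poly →+* R := (FreeAlgebra.lift ℤ v).toRingHom

/-- A variable. -/
def X (z : Var) : Poly := FreeAlgebra.ι ℤ z

theorem ev_X (v : Var → R) (z : Var) : ev v (X z) = v z := FreeAlgebra.lift_ι_apply _ _

theorem ev_map (φ : R →+* S) (v : Var → R) (p : Poly) : φ (ev v p) = ev (fun z => φ (v z)) p := by
  induction p using FreeAlgebra.induction with
  | grade0 n => simp [ev]
  | grade1 z => rw [show FreeAlgebra.ι ℤ z = X z from rfl, ev_X, ev_X]
  | mul a b ha hb => simp only [map_mul, ha, hb]
  | add a b ha hb => simp only [map_add, ha, hb]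

/-- The matrix `[[x, u, w], [0, x, v], [0, 0, x]]`. -/
def tri (x u v w : R) : Matrix (Fin 3) (Fin 3) R := !![x, u, w; 0, x, v; 0, 0, x]

/-- The value of `p` on the triangular point `[[x, u, 0], [0, x, v], [0, 0, x]]`. -/
def jet (x u v : Var → R) : Poly →+* Matrix (Fin 3) (Fin 3) R :=
  ev fun z => tri (x z) (u z) (v z) 0

/-- First derivative at `x` in the direction `u`. -/
def d1 (x u : Var → R) (p : Poly) : R := jet x u u p 0 1

/-- The second order entry at `x` in the ordered pair of directions `u`, `v`. -/
def d2 (x u v : Var → R) (p : Poly) : R := jet x u v p 0 2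

/-- The second entry of the jet, a derivative in the second direction. -/
def d1' (x u v : Var → R) (p : Poly) : R := jet x u v p 1 2

theorem tri_mul (x u v w x' u' v' w' : R) :
    tri x u v w * tri x' u' v' w' =
      tri (x * x') (x * u' + u * x') (x * v' + v * x') (x * w' + u * v' + w * x') := by
  ext i j
  fin_cases i <;> fin_cases j <;> simp [tri, Matrix.mul_apply, Fin.sum_univ_three]

theorem tri_add (x u v w x' u' v' w' : R) :
    tri x u v w + tri x' u' v' w' = tri (x + x') (u + u') (v + v') (w + w') := by
  ext i j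
  fin_cases i <;> fin_cases j <;> simp [tri]

theorem jet_eq (x u v : Var → R) (p : Poly) :
    jet x u v p = tri (ev x p) (jet x u v p 0 1) (jet x u v p 1 2) (jet x u v p 0 2) := by
  induction p using FreeAlgebra.induction with
  | grade0 n =>
    ext i j
    fin_cases i <;> fin_cases j <;> simp [jet, ev, tri, Matrix.intCast_apply]
  | grade1 z =>
    rw [show FreeAlgebra.ι ℤ z = X z from rfl, jet, ev_X, ev_X]
    simp [tri]
  | mul a b ha hb =>
    rw [map_mul, ha, hb, tri_mul, map_mul]
    simp [tri]
  | add a b ha hb =>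
    rw [map_add, ha, hb, tri_add, map_add]
    simp [tri]

theorem jet_mul (x u v : Var → R) (p q : Poly) :
    jet x u v (p * q) = tri (ev x p * ev x q)
      (ev x p * jet x u v q 0 1 + jet x u v p 0 1 * ev x q)
      (ev x p * jet x u v q 1 2 + jet x u v p 1 2 * ev x q)
      (ev x p * jet x u v q 0 2 + jet x u v p 0 1 * jet x u v q 1 2 + jet x u v p 0 2 * ev x q) := by
  conv_lhs => rw [map_mul, jet_eq x u v p, jet_eq x u v q, tri_mul]

/-- The jet entries: both first entries are `d1`. -/
theorem jet_entries (x u v : Var → R) (p : Poly) :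
    jet x u v p 0 1 = d1 x u p ∧ jet x u v p 1 2 = d1 x v p := by
  induction p using FreeAlgebra.induction with
  | grade0 n => simp [d1, jet, ev, Matrix.intCast_apply]
  | grade1 z =>
    rw [show FreeAlgebra.ι ℤ z = X z from rfl]
    simp [d1, jet, ev_X, tri]
  | mul a b ha hb =>
    have h : ∀ u v : Var → R, jet x u v (a * b) 0 1 = ev x a * jet x u v b 0 1 + jet x u v a 0 1 * ev x b ∧
        jet x u v (a * b) 1 2 = ev x a * jet x u v b 1 2 + jet x u v a 1 2 * ev x b := by
      intro u v
      rw [jet_mul]
      simp [tri]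
    unfold d1
    rw [(h u v).1, (h u v).2, (h u u).1, (h v v).1, ha.1, ha.2, hb.1, hb.2]
    exact ⟨rfl, rfl⟩
  | add a b ha hb =>
    unfold d1 at *
    simp only [map_add, Matrix.add_apply, ha.1, ha.2, hb.1, hb.2, and_self]

theorem jet_eq' (x u v : Var → R) (p : Poly) :
    jet x u v p = tri (ev x p) (d1 x u p) (d1 x v p) (d2 x u v p) := by
  conv_lhs => rw [jet_eq x u v p, (jet_entries x u v p).1, (jet_entries x u v p).2]
  rfl

variable (x u v : Var → R)

@[simp] theorem d1_X (z : Var) : d1 x u (X z) = u z := by simp [d1, jet, ev_X, tri]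

@[simp] theorem d2_X (z : Var) : d2 x u v (X z) = 0 := by simp [d2, jet, ev_X, tri]

@[simp] theorem d1_int (n : ℤ) : d1 x u (algebraMap ℤ Poly n) = 0 := by simp [d1, jet, ev, Matrix.intCast_apply]

@[simp] theorem d2_int (n : ℤ) : d2 x u v (algebraMap ℤ Poly n) = 0 := by simp [d2, jet, ev, Matrix.intCast_apply]

theorem d1_add (p q : Poly) : d1 x u (p + q) = d1 x u p + d1 x u q := by
  simp [d1, map_add]

theorem d2_add (p q : Poly) : d2 x u v (p + q) = d2 x u v p + d2 x u v q := by
  simp [d2, map_add]

theorem d1_mul (p q : Poly) : d1 x u (p * q) = ev x p * d1 x u q + d1 x u p * ev x q := by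
  simp [d1, jet_mul, tri]

theorem d2_mul (p q : Poly) :
    d2 x u v (p * q) = ev x p * d2 x u v q + d1 x u p * d1 x v q + d2 x u v p * ev x q := by
  unfold d2
  rw [jet_mul]
  simp [tri, (jet_entries x u v p).1, (jet_entries x u v q).2]

/-- Naturality: a homomorphism commutes with the derivatives, also after multiplying the directions by elements
commuting with the image. -/
theorem map_d1 (φ : R →+* S) (N : S) (hN : ∀ a, φ a * N = N * φ a) (p : Poly) :
    φ (d1 x u p) * N = d1 (fun z => φ (x z)) (fun z => φ (u z) * N) p := by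
  induction p using FreeAlgebra.induction with
  | grade0 n =>
    rw [eq_intCast (algebraMap ℤ Poly)]
    simp [d1, jet, ev, Matrix.intCast_apply]
  | grade1 z => simp only [show FreeAlgebra.ι ℤ z = X z from rfl, d1_X]
  | mul a b ha hb =>
    rw [d1_mul, d1_mul, ← ev_map, ← ev_map, ← ha, ← hb, map_add, map_mul, map_mul, add_mul,
      mul_assoc (φ (d1 x u a)), mul_assoc (φ (d1 x u a)), mul_assoc, hN (ev x b)]
  | add a b ha hb => rw [d1_add, d1_add, ← ha, ← hb, map_add, add_mul]

theorem map_d2 (φ : R →+* S) (N M : S) (hN : ∀ a, φ a * N = N * φ a) (hM : ∀ a, φ a * M = M * φ a)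
    (p : Poly) : φ (d2 x u v p) * (N * M) =
      d2 (fun z => φ (x z)) (fun z => φ (u z) * N) (fun z => φ (v z) * M) p := by
  induction p using FreeAlgebra.induction with
  | grade0 n =>
    rw [eq_intCast (algebraMap ℤ Poly)]
    simp [d2, jet, ev, Matrix.intCast_apply]
  | grade1 z => simp [show FreeAlgebra.ι ℤ z = X z from rfl]
  | mul a b ha hb =>
    rw [d2_mul, d2_mul, ← ev_map, ← ev_map, ← ha, ← hb, ← map_d1 x u φ N hN, ← map_d1 x v φ M hM]
    simp only [map_add, map_mul, add_mul]
    simp only [mul_assoc]
    congr 1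
    · congr 1
      rw [← mul_assoc N, ← hN, mul_assoc]
    · congr 1
      rw [← hM, ← mul_assoc N, ← hN, mul_assoc]
  | add a b ha hb => rw [d2_add, d2_add, ← ha, ← hb, map_add, add_mul]

end Poly

end

end Vale.Agent.P199
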